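import Vale.Agent.P369.IdentInt

/-!
P369: the box annihilators satisfy the algebraic hypotheses, in any basis.
-/

namespace Vale.Agent.P369.Box

noncomputable section

open Matrix Finset Vale.Agent.P369.Fock Vale.Agent.P369.Ident Vale.Agent.P369.Pins
open scoped ComplexConjugate ComplexOrder

variable {n K : ℕ}

theorem ann_mul_apply (i j : Fin n) (r c : Box n K) :
    (ann i * ann j : Matrix (Box n K) (Box n K) ℂ) r c = if occ c = occ r + Pi.single i 1 + Pi.single j 1 then
      ((Real.sqrt ((occ r + Pi.single i 1 : Fin n → ℕ) i) * Real.sqrt (occ c j) : ℝ) : ℂ) else 0 := by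
  rw [mul_apply]
  by_cases h : occ c = occ r + Pi.single i 1 + Pi.single j 1
  · rw [if_pos h]
    obtain ⟨m, hm⟩ := exists_occ (K := K) (a := occ r + Pi.single i 1) fun l => by
      have h1 := congrFun h l
      have h2 := occ_le c l
      simp only [Pi.add_apply] at h1 ⊢
      omega
    rw [Fintype.sum_eq_single m]
    · rw [ann, ann, if_pos hm, if_pos (by rw [hm]; exact h), ← Complex.ofReal_mul, ← hm]
    · intro x hx
      by_cases hx' : occ x = occ r + Pi.single i 1
      · exact absurd (occ_injective (hx'.trans hm.symm)) hx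
      · rw [ann, if_neg hx', zero_mul]
  · rw [if_neg h]
    refine sum_eq_zero fun x _ => ?_
    simp only [ann]
    split_ifs with h1 h2
    · exact absurd (by rw [← h1]; exact h2) h
    · rw [mul_zero]
    · rw [zero_mul]
    · rw [zero_mul]

theorem ann_comm (i j : Fin n) : ann (K := K) i * ann j = ann j * ann i := by
  by_cases hij : i = j
  · subst hij; rfl
  ext r c
  rw [ann_mul_apply, ann_mul_apply]
  by_cases h : occ c = occ r + Pi.single i 1 + Pi.single j 1
  · rw [if_pos h, if_pos (by rw [h]; abel)]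
    have hi := congrFun h i
    have hj := congrFun h j
    simp only [Pi.add_apply, Pi.single_eq_same, Pi.single_eq_of_ne hij,
      Pi.single_eq_of_ne (Ne.symm hij), add_zero] at hi hj ⊢
    rw [hi, hj, mul_comm]
  · rw [if_neg h, if_neg fun h' => h (by rw [h']; abel)]

theorem num_eq (j : Fin n) : num (K := K) j = (ann j)ᴴ * ann j := by
  ext c c'
  rw [num, mul_apply, diagonal_apply]
  simp only [conjTranspose_apply, RCLike.star_def, ann_conj]
  by_cases hc : c = c'
  · subst hc
    rw [if_pos rfl]
    rcases Nat.eq_zero_or_pos (occ c j) with h0 | h0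
    · rw [h0, Nat.cast_zero, sum_eq_zero]
      intro x _
      rw [ann]; split
      · next h => rw [h0]; simp
      · rw [zero_mul]
    · obtain ⟨m, hm⟩ := exists_occ (K := K) (a := occ c - Pi.single j 1) fun l => by
        have := occ_le c l
        simp only [Pi.sub_apply]; omega
      have hcm : occ c = occ m + Pi.single j 1 := by
        funext l
        rw [hm]
        by_cases hl : l = j
        · subst hl; simp only [Pi.add_apply, Pi.sub_apply, Pi.single_eq_same]; omega
        · simp [hl]
      rw [Fintype.sum_eq_single m]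
      · rw [ann, if_pos hcm, ← Complex.ofReal_mul, Real.mul_self_sqrt (Nat.cast_nonneg _),
          Complex.ofReal_natCast]
      · intro x hx
        rw [ann, if_neg (fun h => hx (occ_injective (add_right_cancel (h.symm.trans hcm)))),
          zero_mul]
  · rw [if_neg hc]
    symm
    refine sum_eq_zero fun x _ => ?_
    simp only [ann]
    split_ifs with h1 h2
    · exact absurd (occ_injective (h1.trans h2.symm)) hc
    · rw [mul_zero]
    · rw [zero_mul]
    · rw [zero_mul]

theorem low_ann : Low (1 / 2) (fun j => ann (n := n) (K := K) j) := by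
  refine ⟨ann_comm, fun j => ?_⟩
  rw [Ladj]
  have hterm : ∀ i, (ann i)ᴴ * ann j * ann i -
      (2 : ℂ)⁻¹ • ((ann i)ᴴ * ann i * ann j + ann j * ((ann i)ᴴ * ann i)) =
      (2 : ℂ)⁻¹ • (num i * ann j - ann j * num i : Matrix (Box n K) (Box n K) ℂ) := by
    intro i
    rw [Matrix.mul_assoc (ann i)ᴴ (ann j), ann_comm j i, ← Matrix.mul_assoc (ann i)ᴴ, ← num_eq]
    module
  rw [show ((1 / 2 : ℝ) : ℂ) = (2 : ℂ)⁻¹ by norm_num]
  simp only [hterm, ← smul_sum, ← smul_neg]
  congr 1
  ext r c
  simp only [Matrix.sum_apply, Matrix.sub_apply, num, diagonal_mul, mul_diagonal, Matrix.neg_apply]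
  by_cases h : occ c = occ r + Pi.single j 1
  · rw [Fintype.sum_eq_single j]
    · have := congrFun h j
      simp only [Pi.add_apply, Pi.single_eq_same] at this
      rw [this]; push_cast; ring
    · intro i hi
      have := congrFun h i
      simp only [Pi.add_apply, Pi.single_eq_of_ne hi, add_zero] at this
      rw [this]; ring
  · simp only [ann, if_neg h, mul_zero, zero_mul, sub_zero, sum_const_zero, neg_zero]

theorem lossGen_eq (X : Matrix (Box n K) (Box n K) ℂ) :
    lossGen X = Lsch (fun j => ann j) X := by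
  simp only [lossGen, Lsch, num_eq]

theorem ann_commutator (j : Fin n) :
    (1 : Matrix (Box n K) (Box n K) ℂ) - (ann j * (ann j)ᴴ - (ann j)ᴴ * ann j) =
      diagonal fun r => if occ r j < K then 0 else ((K : ℂ) + 1) := by
  rw [← num_eq]
  ext r r'
  simp only [Matrix.sub_apply, num, mul_apply, conjTranspose_apply, RCLike.star_def, ann_conj,
    diagonal_apply, one_apply]
  by_cases hr : r = r'
  · subst hr
    simp only [if_true]
    by_cases hK : occ r j < K
    · rw [if_pos hK]
      obtain ⟨m, hm⟩ := exists_occ (K := K) (a := occ r + Pi.single j 1) fun l => by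
        have := occ_le r l
        by_cases hl : l = j
        · subst hl; simp only [Pi.add_apply, Pi.single_eq_same]; omega
        · simp [hl, this]
      rw [Fintype.sum_eq_single m]
      · rw [ann, if_pos hm, ← Complex.ofReal_mul, Real.mul_self_sqrt (Nat.cast_nonneg _),
          Complex.ofReal_natCast, hm]
        simp only [Pi.add_apply, Pi.single_eq_same]
        push_cast; ring
      · intro x hx
        rw [ann, if_neg (fun h => hx (occ_injective (h.trans hm.symm))), zero_mul]
    · rw [if_neg hK, sum_eq_zero]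
      · have : occ r j = K := le_antisymm (occ_le r j) (not_lt.1 hK)
        rw [this]; ring
      · intro x _
        rw [ann, if_neg, zero_mul]
        intro h
        have h' := congrFun h j
        have := occ_le x j
        simp only [Pi.add_apply, Pi.single_eq_same] at h'
        omega
  · simp only [if_neg hr, sub_zero, zero_sub, neg_eq_zero]
    refine sum_eq_zero fun x _ => ?_
    simp only [ann]
    split_ifs with h1 h2
    · exact absurd (occ_injective (add_right_cancel (h1.symm.trans h2))) hr
    · rw [mul_zero]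
    · rw [zero_mul]
    · rw [zero_mul]

variable {ι : Type*} [Fintype ι] [DecidableEq ι] (A : Fin n → Matrix ι ι ℂ) {V : Matrix ι ι ℂ}

theorem Lsch_conj (h1 : Vᴴ * V = 1) (h2 : V * Vᴴ = 1) (X : Matrix ι ι ℂ) :
    Lsch A (V * X * Vᴴ) = V * Lsch (fun j => Vᴴ * A j * V) X * Vᴴ := by
  simp only [Lsch, Matrix.mul_sum, Matrix.sum_mul]
  refine sum_congr rfl fun i _ => ?_
  simp only [Matrix.mul_sub, Matrix.sub_mul, Matrix.mul_smul, Matrix.smul_mul, Matrix.mul_add,
    Matrix.add_mul, conjTranspose_mul, conjTranspose_conjTranspose]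
  have c1 : ∀ Z, V * (Vᴴ * Z) = Z := fun Z => by rw [← Matrix.mul_assoc, h2, Matrix.one_mul]
  have c2 : ∀ Z, Vᴴ * (V * Z) = Z := fun Z => by rw [← Matrix.mul_assoc, h1, Matrix.one_mul]
  simp only [Matrix.mul_assoc, c1, h2, Matrix.mul_one]

theorem Ladj_conj (h1 : Vᴴ * V = 1) (h2 : V * Vᴴ = 1) (X : Matrix ι ι ℂ) :
    Ladj (fun j => Vᴴ * A j * V) (Vᴴ * X * V) = Vᴴ * Ladj A X * V := by
  simp only [Ladj, Matrix.mul_sum, Matrix.sum_mul]
  refine sum_congr rfl fun i _ => ?_
  simp only [Matrix.mul_sub, Matrix.sub_mul, Matrix.mul_smul, Matrix.smul_mul, Matrix.mul_add,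
    Matrix.add_mul, conjTranspose_mul, conjTranspose_conjTranspose]
  have c1 : ∀ Z, V * (Vᴴ * Z) = Z := fun Z => by rw [← Matrix.mul_assoc, h2, Matrix.one_mul]
  have c2 : ∀ Z, Vᴴ * (V * Z) = Z := fun Z => by rw [← Matrix.mul_assoc, h1, Matrix.one_mul]
  simp only [Matrix.mul_assoc, c1]

theorem low_conj {κ : ℝ} (hA : Low κ A) (h1 : Vᴴ * V = 1) (h2 : V * Vᴴ = 1) :
    Low κ (fun j => Vᴴ * A j * V) := by
  refine ⟨fun i j => ?_, fun j => ?_⟩
  · have c1 : ∀ Z, V * (Vᴴ * Z) = Z := fun Z => by rw [← Matrix.mul_assoc, h2, Matrix.one_mul]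
    simp only [Matrix.mul_assoc, c1]
    rw [← Matrix.mul_assoc (A i), hA.comm, Matrix.mul_assoc]
  · rw [Ladj_conj A h1 h2, hA.low]
    simp only [Matrix.mul_neg, Matrix.neg_mul, Matrix.mul_smul, Matrix.smul_mul]

end

end Vale.Agent.P369.Box
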