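import Vale.Agent.P369.Scalar

/-!
# P369: from the second-order inequality to the entropy photon-number inequality

If `S' = -D` along the loss flow, `S > 0`, and at every time with `D > 0` one has `D < n` and
`D' + D ≥ n x` for the `x` with `d x = D/n`, then `g (e^{-t} N₀) ≤ S t / n` when `g N₀ = S 0 / n`.
-/

namespace Vale.Agent.P369.Ode

open Real Set Filter Topology
open Vale.Agent.P369.Scalar

/-- The entropy of a thermal state. -/
noncomputable def g (t : ℝ) : ℝ := (t + 1) * log (t + 1) - t * log t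

/-- `log (1 + 1/N)`, the derivative of `g`. -/
noncomputable def L (N : ℝ) : ℝ := log (N + 1) - log N

/-- `N log (1 + 1/N)`, the entropy dissipation of a thermal state. -/
noncomputable def f (N : ℝ) : ℝ := N * L N

variable {N M : ℝ}

lemma L_pos (hN : 0 < N) : 0 < L N := sub_pos.2 (log_lt_log hN (by linarith))

lemma neg_log_x (hN : 0 < N) : -log (N / (N + 1)) = L N := by
  rw [log_div hN.ne' (by linarith), L]; ring

lemma inv_succ_lt_L (hN : 0 < N) : 1 / (N + 1) < L N := by
  have h := one_sub_lt_neg_log (x := N / (N + 1)) (by positivity)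
    (by rw [div_lt_one (by linarith)]; linarith)
  rw [neg_log_x hN] at h
  convert h using 1
  field_simp; ring

lemma L_lt_inv (hN : 0 < N) : L N < 1 / N := by
  have h := mul_neg_log_lt (x := N / (N + 1)) (by positivity)
    (by rw [div_lt_one (by linarith)]; linarith)
  rw [neg_log_x hN] at h
  rw [lt_div_iff₀ hN]
  have h' := mul_lt_mul_of_pos_left h (by linarith : (0:ℝ) < N + 1)
  field_simp at h'
  linarith

lemma hasDeriv_L (hN : 0 < N) : HasDerivAt L (1 / (N + 1) - 1 / N) N := by
  have := (((hasDerivAt_id' N).add_const 1).log (by linarith)).sub (hasDerivAt_log hN.ne')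
  exact this.congr_deriv (by rw [one_div N])

lemma hasDeriv_g (hN : 0 < N) : HasDerivAt g (L N) N := by
  have h1 := ((hasDerivAt_id' N).add_const 1).mul
    (((hasDerivAt_id' N).add_const 1).log (by linarith))
  have h2 := (hasDerivAt_id' N).mul (hasDerivAt_log hN.ne')
  refine (h1.sub h2).congr_deriv ?_
  rw [L]; field_simp; ring

lemma hasDeriv_f (hN : 0 < N) : HasDerivAt f (L N - 1 / (N + 1)) N := by
  refine ((hasDerivAt_id' N).mul (hasDeriv_L hN)).congr_deriv ?_
  field_simp; ring

lemma g_eq (N : ℝ) : g N = negMulLog N - negMulLog (N + 1) := by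
  simp only [g, negMulLog]; ring

lemma continuous_g : Continuous g := by
  rw [funext g_eq]
  exact continuous_negMulLog.sub (continuous_negMulLog.comp (continuous_id.add_const 1))

lemma g_zero : g 0 = 0 := by simp [g]

lemma strictMono_g : StrictMonoOn g (Ici 0) := by
  apply strictMonoOn_of_hasDerivWithinAt_pos (f' := L) (convex_Ici 0) continuous_g.continuousOn
  · intro y hy; rw [interior_Ici] at hy; exact (hasDeriv_g hy).hasDerivWithinAt
  · intro y hy; rw [interior_Ici] at hy; exact L_pos hy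

lemma strictMono_f : StrictMonoOn f (Ioi 0) := by
  apply strictMonoOn_of_hasDerivWithinAt_pos (f' := fun y => L y - 1 / (y + 1)) (convex_Ioi 0)
  · exact fun y hy => (hasDeriv_f hy).continuousAt.continuousWithinAt
  · intro y hy; rw [interior_Ioi] at hy; exact (hasDeriv_f hy).hasDerivWithinAt
  · intro y hy; rw [interior_Ioi] at hy; exact sub_pos.2 (inv_succ_lt_L hy)

lemma antitone_succ_mul_L : AntitoneOn (fun y => (y + 1) * L y) (Ioi 0) := by
  have hd : ∀ y : ℝ, 0 < y → HasDerivAt (fun y => (y + 1) * L y) (L y - 1 / y) y := by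
    intro y hy
    refine (((hasDerivAt_id' y).add_const 1).mul (hasDeriv_L hy)).congr_deriv ?_
    field_simp; ring
  refine antitoneOn_of_hasDerivWithinAt_nonpos (f' := fun y => L y - 1 / y) (convex_Ioi 0)
    (fun y hy => (hd y hy).continuousAt.continuousWithinAt) ?_ ?_
  · intro y hy; rw [interior_Ioi] at hy; exact (hd y hy).hasDerivWithinAt
  · intro y hy; rw [interior_Ioi] at hy; linarith [L_lt_inv hy]

lemma log_succ_le_g (hN : 0 < N) : log (N + 1) ≤ g N := by
  rw [g]; nlinarith [mul_pos hN (L_pos hN), show L N = log (N + 1) - log N from rfl]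

lemma exists_g_eq {y : ℝ} (hy : 0 < y) : ∃ N, 0 < N ∧ g N = y := by
  set b := exp y with hb
  have hbp : 0 < b := exp_pos _
  have h : y < g b := by
    have h1 : log b < log (b + 1) := log_lt_log hbp (by linarith)
    rw [hb, log_exp] at h1
    linarith [log_succ_le_g hbp]
  obtain ⟨N, hN, hN'⟩ := intermediate_value_Ioo hbp.le continuous_g.continuousOn
    (show y ∈ Ioo (g 0) (g b) from ⟨by rwa [g_zero], h⟩)
  exact ⟨N, hN.1, hN'⟩

open Classical in
/-- The inverse of `g` on `(0,∞)`. -/
noncomputable def gInv (y : ℝ) : ℝ := if h : 0 < y then (exists_g_eq h).choose else 0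

lemma gInv_pos {y : ℝ} (hy : 0 < y) : 0 < gInv y := by
  rw [gInv, dif_pos hy]; exact (exists_g_eq hy).choose_spec.1

lemma g_gInv {y : ℝ} (hy : 0 < y) : g (gInv y) = y := by
  rw [gInv, dif_pos hy]; exact (exists_g_eq hy).choose_spec.2

lemma continuousAt_gInv {y : ℝ} (hy : 0 < y) : ContinuousAt gInv y := by
  have hN := gInv_pos hy
  rw [ContinuousAt, tendsto_order]
  constructor
  · intro a ha
    set a' := max a 0 with ha'
    have h1 : a' < gInv y := max_lt ha hN
    have h2 : g a' < y := by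
      have := strictMono_g (mem_Ici.2 (le_max_right _ _)) (mem_Ici.2 hN.le) h1
      rwa [g_gInv hy] at this
    filter_upwards [eventually_gt_nhds h2, eventually_gt_nhds hy] with z hz hz0
    by_contra hle
    rw [not_lt] at hle
    have := strictMono_g.monotoneOn (mem_Ici.2 (gInv_pos hz0).le) (mem_Ici.2 (le_max_right a 0))
      (hle.trans (le_max_left _ _))
    rw [g_gInv hz0] at this
    linarith
  · intro b hb
    have hb0 : 0 < b := hN.trans hb
    have h2 : y < g b := by
      have := strictMono_g (mem_Ici.2 hN.le) (mem_Ici.2 hb0.le) hb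
      rwa [g_gInv hy] at this
    filter_upwards [eventually_lt_nhds h2, eventually_gt_nhds hy] with z hz hz0
    by_contra hle
    rw [not_lt] at hle
    have := strictMono_g.monotoneOn (mem_Ici.2 hb0.le) (mem_Ici.2 (gInv_pos hz0).le) hle
    rw [g_gInv hz0] at this
    linarith

lemma hasDeriv_gInv {y : ℝ} (hy : 0 < y) : HasDerivAt gInv (L (gInv y))⁻¹ y :=
  (hasDeriv_g (gInv_pos hy)).of_local_left_inverse (continuousAt_gInv hy)
    (L_pos (gInv_pos hy)).ne' ((eventually_gt_nhds hy).mono fun _ hz => g_gInv hz)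

/-- A function which cannot decrease just below the level `0` stays above it. -/
lemma nonneg_of_deriv {φ φ' : ℝ → ℝ} {a b k : ℝ} (hab : a ≤ b) (hk : 0 < k)
    (hc : ContinuousOn φ (Icc a b)) (ha : 0 ≤ φ a)
    (hd : ∀ t ∈ Ioo a b, HasDerivAt φ (φ' t) t)
    (hpos : ∀ t ∈ Ioo a b, -k < φ t → φ t < 0 → 0 ≤ φ' t) : 0 ≤ φ b := by
  by_contra hb
  rw [not_le] at hb
  set A := Icc a b ∩ φ ⁻¹' Ici 0 with hA
  have hAc : IsClosed A := hc.preimage_isClosed_of_isClosed isClosed_Icc isClosed_Ici
  have hAne : A.Nonempty := ⟨a, left_mem_Icc.2 hab, ha⟩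
  have hAb : BddAbove A := ⟨b, fun t ht => ht.1.2⟩
  set s := sSup A with hs
  obtain ⟨⟨has, hsb⟩, hφs⟩ : s ∈ A := hAc.csSup_mem hAne hAb
  rw [mem_preimage, mem_Ici] at hφs
  have hsb' : s < b := lt_of_le_of_ne hsb (by intro h; rw [h] at hφs; linarith)
  have hneg : ∀ t, s < t → t ≤ b → φ t < 0 := by
    intro t ht htb
    by_contra h
    exact absurd (le_csSup hAb ⟨⟨has.trans ht.le, htb⟩, not_lt.1 h⟩) (not_le.2 ht)
  have hev : ∀ᶠ t in 𝓝[Icc a b] s, -k < φ t :=
    (hc s ⟨has, hsb⟩).eventually_const_lt (by linarith)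
  obtain ⟨δ, hδ, hδ'⟩ := Metric.mem_nhdsWithin_iff.1 hev
  set u := min b (s + δ / 2) with hu
  have hsu : s < u := lt_min hsb' (by linarith)
  have hub : u ≤ b := min_le_left _ _
  have hmono : MonotoneOn φ (Icc s u) := by
    refine monotoneOn_of_hasDerivWithinAt_nonneg (f' := φ') (convex_Icc s u)
      (hc.mono (Icc_subset_Icc has hub)) ?_ ?_ <;>
      intro t ht <;> rw [interior_Icc] at ht
    · exact (hd t ⟨has.trans_lt ht.1, ht.2.trans_le hub⟩).hasDerivWithinAt
    · refine hpos t ⟨has.trans_lt ht.1, ht.2.trans_le hub⟩ (hδ' ⟨?_, ?_⟩)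
        (hneg t ht.1 (ht.2.le.trans hub))
      · rw [Metric.mem_ball, dist_eq, abs_lt]
        have := min_le_right b (s + δ / 2)
        constructor <;> linarith [ht.1, ht.2]
      · exact ⟨has.trans ht.1.le, ht.2.le.trans hub⟩
  have := hmono (left_mem_Icc.2 hsu.le) (right_mem_Icc.2 hsu.le) hsu.le
  linarith [hneg u hsu hub]

/-- The dissipation hypothesis at time `t`. -/
def Dissip (n : ℝ) (D D1 : ℝ → ℝ) (t : ℝ) : Prop :=
  0 < D t → D t < n ∧ ∀ x, 0 < x → x < 1 → d x = D t / n → n * x ≤ D1 t + D t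

variable {n : ℝ} {S D D1 : ℝ → ℝ}

/-- The hypothesis `Dissip` from the profile of finitely many weights and ratios. -/
theorem dissip_of_profile {ι : Type*} (s : Finset ι) (q r : ι → ℝ) (hn : 0 < n) {t : ℝ}
    (hq : ∀ i ∈ s, 0 ≤ q i) (hr : ∀ i ∈ s, 0 ≤ r i) (hsum : ∑ i ∈ s, q i * (1 - r i) = n)
    (hDt : D t = ∑ i ∈ s, q i * (r i * -log (r i)))
    (hbound : ∀ c, 0 < c →
      (∫ l in (0:ℝ)..c, profile s q r l ^ 2 / n) + profile s q r c ≤ D1 t + D t) :
    Dissip n D D1 t := by
  intro _
  refine ⟨?_, fun x hx hx1 hxd => ?_⟩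
  · obtain ⟨i, hi, hne⟩ := Finset.exists_ne_zero_of_sum_ne_zero (hsum.trans_ne hn.ne')
    rw [hDt, ← hsum]
    refine Finset.sum_lt_sum (fun j hj => ?_) ⟨i, hi, ?_⟩
    · exact mul_le_mul_of_nonneg_left (mul_neg_log_le (hr j hj)) (hq j hj)
    · have hq0 : 0 < q i := lt_of_le_of_ne (hq i hi) (fun h => hne (by rw [← h, zero_mul]))
      refine mul_lt_mul_of_pos_left ?_ hq0
      have h1 : r i ≠ 1 := fun h => hne (by rw [h, sub_self, mul_zero])
      rcases (hr i hi).eq_or_lt with h | h
      · rw [← h]; norm_num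
      rcases lt_or_gt_of_ne h1 with h' | h'
      · exact mul_neg_log_lt h h'
      · have h2 := log_lt_sub_one_of_pos (inv_pos.2 h) (inv_lt_one_of_one_lt₀ h').ne
        rw [log_inv] at h2
        have := mul_lt_mul_of_pos_left h2 h
        rw [mul_sub, mul_inv_cancel₀ h.ne'] at this
        linarith
  · obtain ⟨c, hc, hT⟩ := tangent_profile (ι := ι) hx hx1
    have h := hT s q r n hq hr hn hsum
    rw [hxd, ← hDt, mul_div_cancel₀ _ hn.ne', sub_self, mul_zero, add_zero] at h
    exact h.trans (hbound c hc)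

/-- The infinitesimal inequality: `D/n ≤ f (g⁻¹ (S/n))`. -/
theorem dissipation_le (hn : 0 < n) (hS : ∀ t, 0 < t → HasDerivAt S (-D t) t)
    (hD : ∀ t, 0 < t → HasDerivAt D (D1 t) t) (hpos : ∀ t, 0 < t → 0 < S t)
    (hdis : ∀ t, 0 < t → Dissip n D D1 t) {t : ℝ} (ht : 0 < t) :
    D t / n ≤ f (gInv (S t / n)) := by
  by_contra hcon
  rw [not_le] at hcon
  let N : ℝ → ℝ := fun s => gInv (S s / n)
  let W : ℝ → ℝ := fun s => D s / n - f (N s)
  set W0 := W t with hW0
  have hW0p : 0 < W0 := sub_pos.2 hcon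
  have hN : ∀ s, 0 < s → 0 < N s := fun s hs => gInv_pos (div_pos (hpos s hs) hn)
  have hWd : ∀ s, 0 < s → HasDerivAt W
      (D1 s / n - (L (N s) - 1 / (N s + 1)) * ((L (N s))⁻¹ * (-D s / n))) s := by
    intro s hs
    have h1 : HasDerivAt N ((L (N s))⁻¹ * (-D s / n)) s :=
      HasDerivAt.comp (h := fun u => S u / n) s (hasDeriv_gInv (div_pos (hpos s hs) hn))
        ((hS s hs).div_const n)
    exact ((hD s hs).div_const n).sub ((hasDeriv_f (hN s hs)).comp s h1)
  have hge : ∀ b, t ≤ b → W0 ≤ W b := by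
    intro b hb
    have h := nonneg_of_deriv (φ := fun s => W s - W0)
      (φ' := fun s => D1 s / n - (L (N s) - 1 / (N s + 1)) * ((L (N s))⁻¹ * (-D s / n)))
      hb hW0p
      (fun s hs => ((hWd s (ht.trans_le hs.1)).sub_const W0).continuousAt.continuousWithinAt)
      (by rw [← hW0]; simp) (fun s hs => (hWd s (ht.trans hs.1)).sub_const W0) ?_
    · linarith
    intro s hs hlo _
    have hs0 := ht.trans hs.1
    have hWs : f (N s) < D s / n := by
      have : 0 < W s := by linarith
      exact sub_pos.1 this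
    have hN0 := hN s hs0
    have hL0 := L_pos hN0
    have hDn : 0 < D s / n := (mul_pos hN0 hL0).trans hWs
    have hD0 : 0 < D s := by have := mul_pos hDn hn; rwa [div_mul_cancel₀ _ hn.ne'] at this
    obtain ⟨hlt, hx⟩ := hdis s hs0 hD0
    obtain ⟨x, hx0, hx1, hxd⟩ := exists_d_eq hDn (by rwa [div_lt_one hn])
    have hkey := hx x hx0 hx1 hxd
    set m := x / (1 - x) with hm
    have he : 0 < 1 - x := sub_pos.2 hx1
    have hm0 : 0 < m := div_pos hx0 he
    have hm1 : m + 1 = 1 / (1 - x) := by rw [hm]; field_simp; ring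
    have hmx : m / (m + 1) = x := by rw [hm1, hm]; field_simp
    have hfm : f m = D s / n := by
      rw [← hxd, f, ← neg_log_x hm0, hmx, d, hm]; ring
    have hNm : N s ≤ m := by
      by_contra h
      rw [not_le] at h
      have := strictMono_f hm0 hN0 h
      linarith
    have hanti : (m + 1) * L m ≤ (N s + 1) * L (N s) := antitone_succ_mul_L hN0 hm0 hNm
    have hyx : D s / n / ((N s + 1) * L (N s)) ≤ x := by
      rw [div_le_iff₀ (by positivity), ← hfm, f]
      have e : x * (m + 1) = m := by rw [hm1, hm]; ring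
      have := mul_le_mul_of_nonneg_left hanti hx0.le
      rw [← mul_assoc, e] at this
      linarith
    have hd1 : x - D s / n ≤ D1 s / n := by
      rw [le_div_iff₀ hn, sub_mul, div_mul_cancel₀ _ hn.ne']; linarith
    have e : (L (N s) - 1 / (N s + 1)) * ((L (N s))⁻¹ * (-D s / n))
        = -(D s / n) + D s / n / ((N s + 1) * L (N s)) := by field_simp; ring
    rw [e]; linarith
  set k := n * W0 with hk
  have hkp : 0 < k := mul_pos hn hW0p
  set T := t + S t / k + 1 with hT
  have hSt := hpos t ht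
  have htT : t < T := by have := div_pos hSt hkp; linarith
  obtain ⟨c, hc, hc'⟩ := exists_hasDerivAt_eq_slope S (fun s => -D s) htT
    (fun s hs => (hS s (ht.trans_le hs.1)).continuousAt.continuousWithinAt)
    (fun s hs => hS s (ht.trans hs.1))
  have h1 := hge c hc.1.le
  have hfN : 0 ≤ f (N c) := (mul_pos (hN c (ht.trans hc.1)) (L_pos (hN c (ht.trans hc.1)))).le
  have h2 : k ≤ D c := by
    rw [hk, mul_comm, ← le_div_iff₀ hn]
    simp only [W] at h1
    linarith
  rw [eq_div_iff (by linarith)] at hc'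
  have h3 : k * (T - t) ≤ S t - S T := by nlinarith
  have h4 : k * (T - t) = S t + k := by rw [hT]; field_simp; ring
  linarith [hpos T (ht.trans htT)]

/-- **Entropy photon number decays at most like `e^{-t}` along the loss flow.** -/
theorem gronwall (hn : 0 < n) (hS : ∀ t, 0 < t → HasDerivAt S (-D t) t)
    (hD : ∀ t, 0 < t → HasDerivAt D (D1 t) t) (hcont : ContinuousOn S (Ici 0))
    (hpos : ∀ t, 0 < t → 0 < S t) (hdis : ∀ t, 0 < t → Dissip n D D1 t)
    {N₀ : ℝ} (hN₀ : 0 ≤ N₀) (h0 : g N₀ = S 0 / n) {t : ℝ} (ht : 0 ≤ t) :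
    g (exp (-t) * N₀) ≤ S t / n := by
  rcases hN₀.eq_or_lt with h | hN
  · subst h
    rw [mul_zero, g_zero]
    rcases ht.eq_or_lt with h | h
    · subst h; rw [← h0, g_zero]
    · exact (div_pos (hpos t h) hn).le
  let φ : ℝ → ℝ := fun s => S s / n - g (exp (-s) * N₀)
  suffices 0 ≤ φ t from sub_nonneg.1 this
  refine nonneg_of_deriv (φ := φ) (φ' := fun s => -D s / n + f (exp (-s) * N₀)) ht zero_lt_one
    ?_ (by simp [φ, h0]) ?_ ?_
  · exact ((hcont.mono Icc_subset_Ici_self).div_const n).sub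
      (continuous_g.comp (by fun_prop)).continuousOn
  · intro s hs
    have hM : 0 < exp (-s) * N₀ := mul_pos (exp_pos _) hN
    have h1 := (hasDeriv_g hM).comp s (((hasDerivAt_id' s).neg.exp).mul_const N₀)
    refine (((hS s hs.1).div_const n).sub h1).congr_deriv ?_
    simp only [f, Pi.neg_apply]; ring
  · intro s hs _ hneg
    have hM : 0 < exp (-s) * N₀ := mul_pos (exp_pos _) hN
    have hy := div_pos (hpos s hs.1) hn
    have hNM : gInv (S s / n) < exp (-s) * N₀ := by
      by_contra h
      rw [not_lt] at h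
      have := strictMono_g.monotoneOn (mem_Ici.2 hM.le) (mem_Ici.2 (gInv_pos hy).le) h
      rw [g_gInv hy] at this
      simp only [φ] at hneg
      linarith
    have h1 := strictMono_f (gInv_pos hy) hM hNM
    have h2 := dissipation_le hn hS hD hpos hdis hs.1
    rw [neg_div]; linarith

end Vale.Agent.P369.Ode
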