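import Vale.Agent.P369.BoxLow
import Vale.Agent.P369.Ode
import Vale.Agent.P369.Fock.Transfer

/-!
P369: from the key inequality to the dissipation hypothesis and to Q1 with a vacuum input.
-/

namespace Vale.Agent.P369.Dissipation

noncomputable section

open Matrix Finset Filter Real Set
open Vale.Agent.P369.Fock Vale.Agent.P369.Ident Vale.Agent.P369.Pins Vale.Agent.P369.Scalar
  Vale.Agent.P369.Ode Vale.Agent.P369.Box
open scoped ComplexConjugate ComplexOrder Topology Matrix.Norms.L2Operator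

set_option linter.unusedSectionVars false

variable {ι : Type*} [Fintype ι] [DecidableEq ι] {n : ℕ}
  {A : Fin n → Matrix ι ι ℂ} {p : ι → ℝ}

/-- `M(lam)` -/
def mm (A : Fin n → Matrix ι ι ℂ) (p : ι → ℝ) (lam : ℝ) : ℝ :=
  ∑ j, ∑ k, ∑ l, ‖A j k l‖ ^ 2 * (p k - p l) * ww p lam k l

theorem hasDerivAt_mm (hp : ∀ k, 0 < p k) {lam : ℝ} (hl : 0 ≤ lam) :
    HasDerivAt (mm A p) (-YY A p lam) lam := by
  unfold mm YY
  simp only [← sum_neg_distrib]
  refine HasDerivAt.fun_sum fun j _ => HasDerivAt.fun_sum fun k _ =>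
    HasDerivAt.fun_sum fun l _ => ?_
  have hd := (den_pos hp hl k l).ne'
  have h := ((((hasDerivAt_id' lam).mul_const (p l)).const_add (p k)).inv hd).const_mul (p l)
  refine ((h.const_mul (‖A j k l‖ ^ 2 * (p k - p l))).congr_deriv ?_).congr_of_eventuallyEq
    (Eventually.of_forall fun s => ?_)
  · simp only [Yop, of_apply, norm_mul, Complex.norm_real, Real.norm_eq_abs, mul_pow, sq_abs]
    field_simp
  · simp only [ww, Pi.inv_apply, div_eq_mul_inv]

theorem mm_sq_le_Gam (hp : ∀ k, 0 < p k) (hsum : ∑ k, p k = 1) {lam : ℝ} (hl : 0 ≤ lam)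
    (hn : 0 < n) : mm A p lam ^ 2 / n ≤ Gam A p lam := by
  set X : Fin n → Matrix ι ι ℂ := fun j =>
    A j * (Yop A p lam j)ᴴ - (Yop A p lam j)ᴴ * A j with hX
  have hm : mm A p lam = ∑ j, ∑ l, p l * (X j l l).re := by
    refine sum_congr rfl fun j _ => ?_
    have e : ∀ l, (X j l l).re =
        ∑ c, (‖A j l c‖ ^ 2 * ww p lam l c - ‖A j c l‖ ^ 2 * ww p lam c l) := fun l => by
      simp only [hX]
      rw [Matrix.sub_apply, mul_apply, mul_apply, Complex.sub_re, Complex.re_sum, Complex.re_sum,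
        ← sum_sub_distrib]
      refine sum_congr rfl fun c _ => ?_
      simp only [conjTranspose_apply, RCLike.star_def, Yop, of_apply, map_mul, Complex.conj_ofReal,
        ww]
      rw [← mul_assoc, Complex.mul_conj, mul_comm (conj (A j c l)), mul_assoc,
        ← Complex.normSq_eq_conj_mul_self]
      simp only [← Complex.ofReal_mul, Complex.ofReal_re, Complex.sq_norm]
      ring
    simp only [e, mul_sum, mul_sub, sum_sub_distrib]
    rw [sum_comm (f := fun l c => p l * (‖A j c l‖ ^ 2 * ww p lam c l)), ← sum_sub_distrib]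
    refine sum_congr rfl fun k _ => ?_
    rw [← sum_sub_distrib]
    exact sum_congr rfl fun l _ => by ring
  have hw : ∀ Z : Matrix ι ι ℂ, 0 ≤ wsq p Z := fun Z =>
    sum_nonneg fun l _ => mul_nonneg (hp l).le (sum_nonneg fun k _ => sq_nonneg _)
  have hx : ∀ j, (∑ l, p l * (X j l l).re) ^ 2 ≤ wsq p (X j) := by
    intro j
    have := sum_mul_sq_le_sq_mul_sq univ (fun l => Real.sqrt (p l))
      (fun l => Real.sqrt (p l) * (X j l l).re)
    simp only [← mul_assoc, Real.mul_self_sqrt (hp _).le, mul_pow, Real.sq_sqrt (hp _).le, hsum,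
      one_mul] at this
    refine this.trans (sum_le_sum fun l _ => mul_le_mul_of_nonneg_left ?_ (hp l).le)
    refine le_trans ?_ (single_le_sum (f := fun k => ‖X j k l‖ ^ 2) (fun k _ => sq_nonneg _)
      (mem_univ l))
    rw [← sq_abs]
    exact pow_le_pow_left₀ (abs_nonneg _) (Complex.abs_re_le_norm _) 2
  rw [div_le_iff₀ (Nat.cast_pos.2 hn), hm]
  refine (sq_sum_le_card_mul_sum_sq (s := univ) (f := fun j => ∑ l, p l * (X j l l).re)).trans ?_
  rw [card_univ, Fintype.card_fin, mul_comm]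
  refine mul_le_mul_of_nonneg_right ?_ (Nat.cast_nonneg _)
  refine (sum_le_sum fun j _ => (hx j)).trans ?_
  rw [Gam]
  refine sum_le_sum fun j _ => le_trans ?_ (single_le_sum
    (f := fun j' => lam * wsq p (A j * Yop A p lam j' - Yop A p lam j' * A j)
      + wsq p (A j * (Yop A p lam j')ᴴ - (Yop A p lam j')ᴴ * A j))
    (fun j' _ => add_nonneg (mul_nonneg hl (hw _)) (hw _)) (mem_univ j))
  exact le_add_of_nonneg_left (mul_nonneg hl (hw _))

theorem tendsto_mm (hp : ∀ k, 0 < p k) : Tendsto (mm A p) atTop (𝓝 0) := by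
  have : Tendsto (fun s => mm A p s) atTop (𝓝 (∑ _j : Fin n, ∑ _k : ι, ∑ _l : ι, (0:ℝ))) :=
    tendsto_finsetSum _ fun j _ => tendsto_finsetSum _ fun k _ => tendsto_finsetSum _ fun l _ => by
      have h : Tendsto (fun s : ℝ => ww p s k l) atTop (𝓝 0) :=
        (tendsto_atTop_add_const_left atTop (p k) (tendsto_id.atTop_mul_const (hp l))).const_div_atTop _
      simpa using h.const_mul (‖A j k l‖ ^ 2 * (p k - p l))
  simpa using this

/-- the integrated inequality -/
theorem bound_profile (hA : Low (1 / 2) A) (hp : ∀ k, 0 < p k) (hsum : ∑ k, p k = 1) (hn : 0 < n)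
    (hkey : ∀ lam : ℝ, 0 < lam → YY A p lam ≤ Gam A p lam) {c : ℝ} (hc : 0 < c) :
    (∫ l in (0:ℝ)..c, mm A p l ^ 2 / n) + mm A p c ≤ d1val A p + dval A p := by
  have hd : ∀ s, 0 ≤ s → HasDerivAt (prim (1 / 2) A p) (Gam A p s) s := fun s hs =>
    primD_eq_Gam hA hp hs ▸ hasDerivAt_prim hp hs
  have hcont : ContinuousOn (fun s => mm A p s ^ 2 / n) (Icc 0 c) := fun s hs =>
    (((hasDerivAt_mm hp hs.1).continuousAt.pow 2).div_const _).continuousWithinAt
  have h1 : (∫ l in (0:ℝ)..c, mm A p l ^ 2 / n) ≤ prim (1 / 2) A p c - prim (1 / 2) A p 0 :=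
    intervalIntegral.integral_le_sub_of_hasDeriv_right_of_le hc.le
      (fun s hs => (hd s hs.1).continuousAt.continuousWithinAt)
      (fun s hs => (hd s hs.1.le).hasDerivWithinAt) hcont.integrableOn_Icc
      (fun s hs => mm_sq_le_Gam hp hsum hs.1.le hn)
  have hmono : MonotoneOn (fun s => prim (1 / 2) A p s + mm A p s) (Ici c) := by
    refine monotoneOn_of_hasDerivWithinAt_nonneg (f' := fun s => Gam A p s + -YY A p s)
      (convex_Ici c)
      (fun s hs => ((hd s (hc.le.trans hs)).add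
        (hasDerivAt_mm hp (hc.le.trans hs))).continuousAt.continuousWithinAt) ?_ ?_
    · intro s hs
      rw [interior_Ici] at hs
      exact ((hd s (hc.trans hs).le).add (hasDerivAt_mm hp (hc.trans hs).le)).hasDerivWithinAt
    · intro s hs
      rw [interior_Ici] at hs
      linarith [hkey s (hc.trans hs)]
  have hlim := (tendsto_prim hA hp).add (tendsto_mm (A := A) hp)
  rw [add_zero, show (2 : ℝ) * (1 / 2) = 1 by norm_num, one_mul] at hlim
  refine ge_of_tendsto hlim ?_
  filter_upwards [eventually_ge_atTop c] with s hs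
  have := hmono (mem_Ici.2 le_rfl) (mem_Ici.2 hs) hs
  simp only at this
  linarith

variable {K : ℕ}

theorem conj_trace {V X Y : Matrix ι ι ℂ} (h1 : Vᴴ * V = 1) :
    ((V * X * Vᴴ) * (V * Y * Vᴴ)).trace = (X * Y).trace := by
  rw [show (V * X * Vᴴ) * (V * Y * Vᴴ) = V * (X * (Vᴴ * V) * Y) * Vᴴ by
    simp only [Matrix.mul_assoc], h1, Matrix.mul_one, trace_mul_cycle, h1, Matrix.one_mul]

/-- eigenbasis data of a positive definite box matrix -/
theorem exists_eigen {σ : Matrix (Box n K) (Box n K) ℂ} (hσ : σ.PosDef) :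
    ∃ (V : Matrix (Box n K) (Box n K) ℂ) (b : Box n K → ℝ), Vᴴ * V = 1 ∧ V * Vᴴ = 1 ∧
      σ = V * diagonal (fun i => (b i : ℂ)) * Vᴴ ∧ (∀ i, 0 < b i) ∧ ∑ i, b i = σ.trace.re := by
  refine ⟨_, hσ.isHermitian.eigenvalues, eig_star_mul hσ.isHermitian, eig_mul_star _, ?_,
    hσ.eigenvalues_pos, (trace_re_eq_sum hσ.isHermitian).symm⟩
  rw [← eig_conj hσ.isHermitian]
  simp only [Matrix.mul_assoc]
  rw [eig_mul_star, Matrix.mul_one, ← Matrix.mul_assoc, eig_mul_star, Matrix.one_mul]

theorem diss_eq {σ V : Matrix (Box n K) (Box n K) ℂ} {b : Box n K → ℝ} (h1 : Vᴴ * V = 1)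
    (h2 : V * Vᴴ = 1) (hσ : σ = V * diagonal (fun i => (b i : ℂ)) * Vᴴ) (hh : σ.IsHermitian) :
    diss σ = dval (fun j => Vᴴ * ann j * V) b := by
  rw [diss, log_eq h1 h2 hσ hh, hσ, lossGen_eq, Lsch_conj _ h1 h2, conj_trace h1]
  rfl

theorem diss_deriv_eq {σ V : Matrix (Box n K) (Box n K) ℂ} {b : Box n K → ℝ} (h1 : Vᴴ * V = 1)
    (h2 : V * Vᴴ = 1) (hσ : σ = V * diagonal (fun i => (b i : ℂ)) * Vᴴ) (hh : σ.IsHermitian) :
    (lossGen (lossGen σ) * CFC.log σ).trace.re + (lossGen σ * dLog V b (lossGen σ)).trace.re =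
      d1val (fun j => Vᴴ * ann j * V) b := by
  have e : Vᴴ * (V * Lsch (fun j => Vᴴ * ann j * V) (diagonal fun i => (b i : ℂ)) * Vᴴ) * V =
      Lsch (fun j => Vᴴ * ann j * V) (diagonal fun i => (b i : ℂ)) := by
    simp only [Matrix.mul_assoc]
    rw [h1, Matrix.mul_one, ← Matrix.mul_assoc, h1, Matrix.one_mul]
  rw [log_eq h1 h2 hσ hh, hσ, lossGen_eq, lossGen_eq, Lsch_conj _ h1 h2, Lsch_conj _ h1 h2,
    dLog, e, conj_trace h1, conj_trace h1]
  rfl

/-- the dissipation hypothesis along the flow -/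
theorem dissip_flow (hKey : Key n K) (hn : 0 < n) {ρ : Matrix (Box n K) (Box n K) ℂ}
    (hρ : ρ.PosDef) (htr : ρ.trace = 1) :
    ∃ D1 : ℝ → ℝ, ∀ t, 0 < t → HasDerivAt (fun s => diss (flow s ρ)) (D1 t) t ∧
      Dissip (n : ℝ) (fun s => diss (flow s ρ)) D1 t := by
  refine ⟨fun t => deriv (fun s => diss (flow s ρ)) t, fun t ht => ?_⟩
  obtain ⟨V, b, h1, h2, hσ, hb, hbs⟩ := exists_eigen (posDef_flow ht.le hρ)
  rw [trace_flow ht.le, htr, Complex.one_re] at hbs
  have hh := (posDef_flow ht.le hρ).isHermitian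
  have hD := hasDerivAt_diss ht hρ h1 h2 hσ
  refine ⟨hD.differentiableAt.hasDerivAt, ?_⟩
  set A : Fin n → Matrix (Box n K) (Box n K) ℂ := fun j => Vᴴ * ann j * V with hAdef
  have hA : Low (1 / 2) A := low_conj _ low_ann h1 h2
  have hDt : diss (flow t ρ) = dval A b := diss_eq h1 h2 hσ hh
  have hD1 : deriv (fun s => diss (flow s ρ)) t = d1val A b := by
    rw [hD.deriv, diss_deriv_eq h1 h2 hσ hh]
  -- weight lost above the cutoff
  set e : Fin n → Box n K → ℝ := fun j k =>
    ((1 - (A j * (A j)ᴴ - (A j)ᴴ * A j)) k k).re with he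
  have he0 : ∀ j k, 0 ≤ e j k := by
    intro j k
    have : (1 : Matrix (Box n K) (Box n K) ℂ) - (A j * (A j)ᴴ - (A j)ᴴ * A j) =
        Vᴴ * (1 - (ann j * (ann j)ᴴ - (ann j)ᴴ * ann j)) * V := by
      have c1 : ∀ Z, V * (Vᴴ * Z) = Z := fun Z => by rw [← Matrix.mul_assoc, h2, Matrix.one_mul]
      simp only [hAdef, conjTranspose_mul, conjTranspose_conjTranspose, Matrix.mul_sub,
        Matrix.sub_mul, Matrix.mul_assoc, c1, Matrix.one_mul, h1]
    simp only [he]
    rw [this, ann_commutator]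
    exact (Complex.nonneg_iff.1 (((posSemidef_diagonal_iff.2 fun r => by
      split
      · exact le_rfl
      · exact_mod_cast (Nat.zero_le (K + 1))).conjTranspose_mul_mul_same V).diag_nonneg (i := k))).1
  have hesum : ∀ j k, e j k = 1 - (∑ l, ‖A j k l‖ ^ 2 - ∑ l, ‖A j l k‖ ^ 2) := by
    intro j k
    rw [he]
    simp only [Matrix.sub_apply, one_apply_eq, Complex.sub_re, Complex.one_re, mul_apply,
      conjTranspose_apply, RCLike.star_def, Complex.re_sum, Complex.mul_conj,
      ← Complex.normSq_eq_conj_mul_self, Complex.ofReal_re, Complex.sq_norm]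
  let q : (Fin n × Box n K × Box n K) ⊕ (Fin n × Box n K) → ℝ := Sum.elim
    (fun x => b x.2.1 * ‖A x.1 x.2.1 x.2.2‖ ^ 2) (fun x => b x.2 * e x.1 x.2)
  let r : (Fin n × Box n K × Box n K) ⊕ (Fin n × Box n K) → ℝ := Sum.elim
    (fun x => b x.2.2 / b x.2.1) (fun _ => 0)
  refine dissip_of_profile Finset.univ q r (Nat.cast_pos.2 hn) ?_ ?_ ?_ ?_ ?_
  · rintro (x | x) -
    · exact mul_nonneg (hb _).le (sq_nonneg _)
    · exact mul_nonneg (hb _).le (he0 _ _)
  · rintro (x | x) -
    · exact div_nonneg (hb _).le (hb _).le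
    · exact le_rfl
  · simp only [q, r, Fintype.sum_sum_type, Sum.elim_inl, Sum.elim_inr, Fintype.sum_prod_type,
      sub_zero, mul_one, hesum, ← sum_add_distrib]
    have : ∀ j, ∑ k, ((∑ l, b k * ‖A j k l‖ ^ 2 * (1 - b l / b k)) +
        b k * (1 - (∑ l, ‖A j k l‖ ^ 2 - ∑ l, ‖A j l k‖ ^ 2))) = 1 := by
      intro j
      have e1 : ∀ k l, b k * ‖A j k l‖ ^ 2 * (1 - b l / b k) =
          b k * ‖A j k l‖ ^ 2 - b l * ‖A j k l‖ ^ 2 := fun k l => by
        have := (hb k).ne'; field_simp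
      simp only [e1, sum_sub_distrib, mul_sub, mul_one, mul_sum, sum_add_distrib, hbs]
      rw [sum_comm (f := fun k l => b l * ‖A j k l‖ ^ 2)]
      ring
    rw [sum_congr rfl fun j _ => this j]
    simp
  · show diss (flow t ρ) = _
    rw [hDt, dval_eq]
    simp only [q, r, Fintype.sum_sum_type, Sum.elim_inl, Sum.elim_inr, Fintype.sum_prod_type,
      zero_mul, mul_zero, sum_const_zero, add_zero]
    refine sum_congr rfl fun j _ => sum_congr rfl fun k _ => sum_congr rfl fun l _ => ?_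
    have := (hb k).ne'
    rw [Real.log_div (hb l).ne' this]
    field_simp
    ring
  · intro c hc
    have hprof : ∀ s, profile Finset.univ q r s = mm A b s := by
      intro s
      simp only [profile, mm, q, r, Fintype.sum_sum_type, Sum.elim_inl, Sum.elim_inr,
        Fintype.sum_prod_type, zero_div, mul_zero, sum_const_zero, add_zero, ww]
      refine sum_congr rfl fun j _ => sum_congr rfl fun k _ => sum_congr rfl fun l _ => ?_
      have := (hb k).ne'
      field_simp
    simp only [hprof]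
    show _ ≤ deriv (fun s => diss (flow s ρ)) t + diss (flow t ρ)
    rw [hD1, hDt]
    exact bound_profile hA hb hbs hn (fun lam hl => hKey V b h1 h2 hb hbs lam hl) hc

theorem vN_nonneg {σ : Matrix ι ι ℂ} (hσ : σ.PosSemidef) (htr : σ.trace = 1) : 0 ≤ vN σ := by
  have := vN_ge hσ (T := 1) (by rw [htr, Complex.one_re]) le_rfl
  simpa using this

theorem vN_pos {σ : Matrix (Box n K) (Box n K) ℂ} (hσ : σ.PosDef) (htr : σ.trace = 1)
    (hn : 0 < n) (hK : 0 < K) : 0 < vN σ := by
  set ev := hσ.isHermitian.eigenvalues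
  rw [vN_eq_sum hσ.isHermitian]
  have hs : ∑ i, ev i = 1 := by
    rw [← trace_re_eq_sum hσ.isHermitian, htr, Complex.one_re]
  have : Nontrivial (Box n K) := by
    refine ⟨⟨fun _ => 0, fun _ => Fin.last K, fun h => ?_⟩⟩
    have := congrArg (fun f : Box n K => (f ⟨0, hn⟩ : ℕ)) h
    simp at this
    omega
  have hlt : ∀ i, ev i < 1 := fun i => by
    obtain ⟨i', hi'⟩ := exists_ne i
    rw [← hs]
    exact single_lt_sum hi' (mem_univ i) (mem_univ i') (hσ.eigenvalues_pos i')
      fun k _ _ => (hσ.eigenvalues_pos k).le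
  refine sum_pos (fun i _ => ?_) univ_nonempty
  rw [Real.negMulLog, neg_mul]
  exact neg_pos.2 (mul_neg_of_pos_of_neg (hσ.eigenvalues_pos i)
    (Real.log_neg (hσ.eigenvalues_pos i) (hlt i)))

theorem gInv_of_nonpos {y : ℝ} (hy : y ≤ 0) : gInv y = 0 := by
  rw [gInv, dif_neg (not_lt.2 hy)]

theorem gInv_nonneg (y : ℝ) : 0 ≤ gInv y := by
  rcases le_or_gt y 0 with h | h
  · rw [gInv_of_nonpos h]
  · exact (gInv_pos h).le

theorem continuous_gInv : Continuous gInv := by
  refine continuous_iff_continuousAt.2 fun y => ?_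
  rcases lt_trichotomy y 0 with h | h | h
  · exact (continuousAt_const (y := (0:ℝ))).congr
      ((eventually_lt_nhds h).mono fun z hz => (gInv_of_nonpos hz.le).symm)
  · subst h
    rw [ContinuousAt, gInv_of_nonpos le_rfl, tendsto_order]
    refine ⟨fun a ha => Eventually.of_forall fun z => ha.trans_le (gInv_nonneg z), fun a ha => ?_⟩
    have h2 : 0 < g a := by
      have := strictMono_g Set.self_mem_Ici (Set.mem_Ici.2 ha.le) ha
      rwa [g_zero] at this
    filter_upwards [eventually_lt_nhds h2] with z hz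
    rcases le_or_gt z 0 with hz0 | hz0
    · rw [gInv_of_nonpos hz0]; exact ha
    · by_contra hle
      rw [not_lt] at hle
      have := strictMono_g.monotoneOn (Set.mem_Ici.2 ha.le) (Set.mem_Ici.2 (gInv_pos hz0).le) hle
      rw [g_gInv hz0] at this
      linarith
  · exact continuousAt_gInv h

theorem g_gInv_nonneg {y : ℝ} (hy : 0 ≤ y) : g (gInv y) = y := by
  rcases hy.eq_or_lt with h | h
  · rw [← h, gInv_of_nonpos le_rfl, g_zero]
  · exact g_gInv h

theorem flow_eq_self_of_K_zero {ρ : Matrix (Box n 0) (Box n 0) ℂ} (htr : ρ.trace = 1) :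
    vN ρ = 0 := by
  have : Subsingleton (Box n 0) := ⟨fun a b => funext fun j => Fin.ext (by omega)⟩
  have h1 : ρ = 1 := by
    ext i j
    have e := Subsingleton.elim i j
    subst e
    rw [one_apply_eq, ← htr, trace, Fintype.sum_eq_single i fun x hx => absurd (Subsingleton.elim x i) hx]
    rfl
  rw [h1, vN, cfc_apply_one (R := ℝ)]
  simp

/-- the box inequality, given the key inequality -/
theorem box_ineq (hKey : Key n K) (hn : 0 < n) {η : ℝ} (h0 : 0 ≤ η) (h1 : η ≤ 1)
    {σ : Matrix (Box n K) (Box n K) ℂ} (hσ : σ.PosDef) (htr : σ.trace = 1) :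
    n * g (η * gInv (vN σ / n)) ≤ vN (att η σ) := by
  have hn' : (0:ℝ) < n := Nat.cast_pos.2 hn
  have hS0 : 0 ≤ vN σ := vN_nonneg hσ.posSemidef htr
  have hatt : 0 ≤ vN (att η σ) :=
    vN_nonneg (posSemidef_att η hσ.posSemidef) (by rw [trace_att h0 h1, htr])
  rcases Nat.eq_zero_or_pos K with hK | hK
  · subst hK
    rw [flow_eq_self_of_K_zero htr, zero_div, gInv_of_nonpos le_rfl, mul_zero, g_zero, mul_zero]
    exact hatt
  rcases h0.eq_or_lt with h | h
  · subst h
    rw [zero_mul, g_zero, mul_zero]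
    exact hatt
  obtain ⟨D1, hD⟩ := dissip_flow hKey hn hσ htr
  have hS : ∀ t, 0 < t → HasDerivAt (fun s => vN (flow s σ)) (-diss (flow t σ)) t :=
    fun t ht => hasDerivAt_vN_flow ht hσ
  have hpos : ∀ t, 0 < t → 0 < vN (flow t σ) := fun t ht =>
    vN_pos (posDef_flow ht.le hσ) (by rw [trace_flow ht.le, htr]) hn hK
  have ht : 0 ≤ -Real.log η := neg_nonneg.2 (Real.log_nonpos h0 h1)
  have := gronwall hn' hS (fun t ht => (hD t ht).1) (continuousOn_vN_flow hσ.posSemidef) hpos
    (fun t ht => (hD t ht).2) (gInv_nonneg (vN σ / n))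
    (by rw [att_one]; exact g_gInv_nonneg (div_nonneg hS0 hn'.le)) ht
  rw [neg_neg, Real.exp_log h, flow_eq_att ht, neg_neg, Real.exp_log h, le_div_iff₀ hn'] at this
  linarith

/-- Q1 with a vacuum second input for all finite-energy states, given the key inequality -/
theorem vacuum_of_key (hKey : ∀ K, Key n K) (hn : 0 < n) {η : ℝ} (h0 : 0 ≤ η) (h1 : η ≤ 1)
    {ρ : Op n} (hρ : IsState ρ) :
    η * gInv (entropy ρ / n) ≤ gInv (entropy (attInf η ρ) / n) := by
  have hn' : (0:ℝ) < n := Nat.cast_pos.2 hn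
  have hF : Continuous fun y => (n:ℝ) * g (η * gInv (y / n)) :=
    continuous_const.mul (continuous_g.comp (continuous_const.mul
      (continuous_gInv.comp (continuous_id.div_const _))))
  have hle := entropy_transfer hF h0 h1 (fun K σ hσ htr => box_ineq (hKey K) hn h0 h1 hσ htr) hρ
  rw [mul_comm (n:ℝ), ← le_div_iff₀ hn'] at hle
  set y := entropy (attInf η ρ) / n with hy
  have hx : 0 ≤ η * gInv (entropy ρ / n) := mul_nonneg h0 (gInv_nonneg _)
  have hy0 : 0 ≤ y := le_trans (by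
    have := strictMono_g.monotoneOn Set.self_mem_Ici (Set.mem_Ici.2 hx) hx
    rwa [g_zero] at this) hle
  rw [← strictMono_g.le_iff_le (Set.mem_Ici.2 hx) (Set.mem_Ici.2 (gInv_nonneg _)),
    g_gInv_nonneg hy0]
  exact hle

end

end Vale.Agent.P369.Dissipation
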