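import Vale.Agent.P369.Pins

/-!
P369: the exact algebraic identity behind `D' + D = ∫ Gam`.
-/

namespace Vale.Agent.P369.Ident

noncomputable section

open Matrix Finset Vale.Agent.P369.Pins
open scoped ComplexConjugate

set_option linter.unusedSectionVars false

variable {ι : Type*} [Fintype ι] [DecidableEq ι] {n : ℕ}

/-- loss generator (Schrödinger) -/
def Lsch (A : Fin n → Matrix ι ι ℂ) (X : Matrix ι ι ℂ) : Matrix ι ι ℂ :=
  ∑ i, (A i * X * (A i)ᴴ - (2 : ℂ)⁻¹ • ((A i)ᴴ * A i * X + X * ((A i)ᴴ * A i)))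

/-- loss generator (Heisenberg) -/
def Ladj (A : Fin n → Matrix ι ι ℂ) (X : Matrix ι ι ℂ) : Matrix ι ι ℂ :=
  ∑ i, ((A i)ᴴ * X * A i - (2 : ℂ)⁻¹ • ((A i)ᴴ * A i * X + X * ((A i)ᴴ * A i)))

/-- algebraic properties of the families used: commuting, and `L†A = -κ A`
(`κ = 1/2` for box annihilators, `κ = 0` for a commuting normal family) -/
structure Low (κ : ℝ) (A : Fin n → Matrix ι ι ℂ) : Prop where
  comm : ∀ i j, A i * A j = A j * A i
  low : ∀ j, Ladj A (A j) = -((κ : ℂ) • A j)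

variable {A : Fin n → Matrix ι ι ℂ} {κ : ℝ}

theorem trace_Lsch_mul (X Z : Matrix ι ι ℂ) :
    (Lsch A X * Z).trace = (X * Ladj A Z).trace := by
  simp only [Lsch, Ladj, Matrix.sum_mul, Matrix.mul_sum, trace_sum]
  refine sum_congr rfl fun i _ => ?_
  simp only [Matrix.sub_mul, Matrix.mul_sub, Matrix.smul_mul, Matrix.mul_smul, Matrix.add_mul,
    Matrix.mul_add, trace_sub, trace_smul, trace_add]
  rw [trace_mul_comm (A i * X * (A i)ᴴ) Z, trace_mul_comm ((A i)ᴴ * A i * X) Z,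
    trace_mul_comm (X * ((A i)ᴴ * A i)) Z]
  have e1 : (Z * (A i * X * (A i)ᴴ)).trace = (X * ((A i)ᴴ * Z * A i)).trace := by
    rw [trace_mul_comm X]
    simp only [Matrix.mul_assoc]
    rw [trace_mul_comm (A i)ᴴ]
    simp only [Matrix.mul_assoc]
  have e2 : (Z * ((A i)ᴴ * A i * X)).trace = (X * (Z * ((A i)ᴴ * A i))).trace := by
    rw [← Matrix.mul_assoc, trace_mul_comm]
  have e3 : (Z * (X * ((A i)ᴴ * A i))).trace = (X * ((A i)ᴴ * A i * Z)).trace := by
    rw [trace_mul_comm Z, Matrix.mul_assoc]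
  rw [e1, e2, e3]
  ring

/-- carré du champ -/
theorem Ladj_mul (X Z : Matrix ι ι ℂ) :
    Ladj A (X * Z) = Ladj A X * Z + X * Ladj A Z
      + ∑ i, ((A i)ᴴ * X - X * (A i)ᴴ) * (Z * A i - A i * Z) := by
  simp only [Ladj, Matrix.sum_mul, Matrix.mul_sum, ← sum_add_distrib]
  refine sum_congr rfl fun i _ => ?_
  simp only [Matrix.sub_mul, Matrix.mul_sub, Matrix.smul_mul, Matrix.mul_smul, Matrix.add_mul,
    Matrix.mul_add, Matrix.mul_assoc, smul_add]
  module

theorem Ladj_conjTranspose (X : Matrix ι ι ℂ) : Ladj A Xᴴ = (Ladj A X)ᴴ := by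
  rw [Ladj, Ladj, conjTranspose_sum]
  refine sum_congr rfl fun i _ => ?_
  simp only [conjTranspose_sub, conjTranspose_smul, conjTranspose_add, conjTranspose_mul,
    conjTranspose_conjTranspose, Matrix.mul_assoc, star_inv₀, star_ofNat]
  rw [add_comm ((A i)ᴴ * (A i * Xᴴ))]

theorem Ladj_add (X Z : Matrix ι ι ℂ) : Ladj A (X + Z) = Ladj A X + Ladj A Z := by
  simp only [Ladj, ← sum_add_distrib, Matrix.mul_add, Matrix.add_mul, smul_add]
  exact sum_congr rfl fun i _ => by abel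

theorem Ladj_smul (c : ℂ) (X : Matrix ι ι ℂ) : Ladj A (c • X) = c • Ladj A X := by
  simp only [Ladj, Matrix.mul_smul, Matrix.smul_mul, smul_sum]
  exact sum_congr rfl fun i _ => by module

theorem Ladj_sub (X Z : Matrix ι ι ℂ) : Ladj A (X - Z) = Ladj A X - Ladj A Z := by
  rw [sub_eq_add_neg, Ladj_add, ← neg_one_smul ℂ Z, Ladj_smul, neg_one_smul, ← sub_eq_add_neg]

/-- the number operator decays: `L†(a†a) = -2κ a†a` -/
theorem Low.num (hA : Low κ A) (j : Fin n) :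
    Ladj A ((A j)ᴴ * A j) = -(((2 * κ : ℝ) : ℂ) • ((A j)ᴴ * A j)) := by
  rw [Ladj_mul, Ladj_conjTranspose, hA.low]
  have : ∀ i, A j * A i - A i * A j = 0 := fun i => sub_eq_zero.2 (hA.comm j i)
  simp only [this, Matrix.mul_zero, sum_const_zero, add_zero, conjTranspose_neg,
    conjTranspose_smul, RCLike.star_def, Complex.conj_ofReal, Matrix.neg_mul, Matrix.mul_neg,
    Matrix.smul_mul, Matrix.mul_smul]
  push_cast
  module

/-- `ρ = diag p` -/
def dg (p : ι → ℝ) : Matrix ι ι ℂ := diagonal fun k => (p k : ℂ)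

theorem dg_conjTranspose (p : ι → ℝ) : (dg p)ᴴ = dg p := by
  rw [dg, diagonal_conjTranspose]
  congr 1
  funext k
  simp

theorem re_trace_dg_conjTranspose (p : ι → ℝ) (Z : Matrix ι ι ℂ) :
    (dg p * Zᴴ).trace.re = (dg p * Z).trace.re := by
  rw [← dg_conjTranspose p, ← conjTranspose_mul, trace_conjTranspose, dg_conjTranspose,
    trace_mul_comm (Z), RCLike.star_def, Complex.conj_re]

theorem wsq_eq_trace (p : ι → ℝ) (X : Matrix ι ι ℂ) :
    wsq p X = (dg p * (Xᴴ * X)).trace.re := by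
  rw [trace, Complex.re_sum]
  refine sum_congr rfl fun l _ => ?_
  rw [diag_apply, dg, diagonal_mul, Complex.re_ofReal_mul, mul_apply, Complex.re_sum]
  congr 1
  refine sum_congr rfl fun k _ => ?_
  rw [conjTranspose_apply, RCLike.star_def, ← Complex.normSq_eq_conj_mul_self, Complex.ofReal_re,
    Complex.sq_norm]

/-- `H + Ḣ` for one mode -/
def hh (κ : ℝ) (A : Fin n → Matrix ι ι ℂ) (p : ι → ℝ) (lam : ℝ) (j : Fin n) (Y : Matrix ι ι ℂ) :
    ℝ :=
  2 * κ * (dg p * (Yᴴ * A j)).trace.re +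
    (Lsch A (dg p) * (Yᴴ * A j + (A j)ᴴ * Y - Y * Yᴴ - (lam : ℂ) • (Yᴴ * Y))).trace.re

/-- the pointwise identity `Gam = -(H + Ḣ)` -/
theorem neg_hh (hA : Low κ A) (p : ι → ℝ) (lam : ℝ) (j : Fin n) {Y : Matrix ι ι ℂ}
    (hY : dg p * Y + (lam : ℂ) • (Y * dg p) = A j * dg p) :
    -hh κ A p lam j Y = ∑ i, (lam * wsq p (A i * Y - Y * A i)
      + wsq p (A i * Yᴴ - Yᴴ * A i)) := by
  set W := Ladj A Y with hW
  have hz : ∀ i, A j * A i - A i * A j = 0 := fun i => sub_eq_zero.2 (hA.comm j i)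
  have hz' : ∀ i, (A i)ᴴ * (A j)ᴴ - (A j)ᴴ * (A i)ᴴ = 0 := fun i => by
    rw [← conjTranspose_mul, ← conjTranspose_mul, hA.comm j i, sub_self]
  have e1 : Ladj A (Yᴴ * A j) = Wᴴ * A j - (κ : ℂ) • (Yᴴ * A j) := by
    rw [Ladj_mul, Ladj_conjTranspose, hA.low, ← hW]
    simp only [hz, Matrix.mul_zero, sum_const_zero, add_zero, Matrix.mul_neg, Matrix.mul_smul,
      sub_eq_add_neg]
  have e2 : Ladj A ((A j)ᴴ * Y) = (Wᴴ * A j - (κ : ℂ) • (Yᴴ * A j))ᴴ := by
    rw [← e1, ← Ladj_conjTranspose, conjTranspose_mul, conjTranspose_conjTranspose]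
  have e3 : Ladj A (Y * Yᴴ) = W * Yᴴ + (W * Yᴴ)ᴴ +
      ∑ i, (A i * Yᴴ - Yᴴ * A i)ᴴ * (A i * Yᴴ - Yᴴ * A i) := by
    rw [Ladj_mul, Ladj_conjTranspose, ← hW, conjTranspose_mul, conjTranspose_conjTranspose]
    congr 1
    refine sum_congr rfl fun i _ => ?_
    rw [conjTranspose_sub, conjTranspose_mul, conjTranspose_mul, conjTranspose_conjTranspose,
      ← neg_sub (Y * (A i)ᴴ), ← neg_sub (A i * Yᴴ), Matrix.neg_mul, Matrix.mul_neg, neg_neg]
  have e4 : Ladj A (Yᴴ * Y) = Wᴴ * Y + (Wᴴ * Y)ᴴ +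
      ∑ i, (A i * Y - Y * A i)ᴴ * (A i * Y - Y * A i) := by
    rw [Ladj_mul, Ladj_conjTranspose, ← hW, conjTranspose_mul, conjTranspose_conjTranspose]
    congr 1
    refine sum_congr rfl fun i _ => ?_
    rw [conjTranspose_sub, conjTranspose_mul, conjTranspose_mul,
      ← neg_sub (Yᴴ * (A i)ᴴ), ← neg_sub (A i * Y), Matrix.neg_mul, Matrix.mul_neg, neg_neg]
  have key : (dg p * (W * Yᴴ)).trace.re + lam * (dg p * (Wᴴ * Y)).trace.re =
      (dg p * (Wᴴ * A j)).trace.re := by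
    have h1 : (dg p * (W * Yᴴ)).trace.re = (Wᴴ * (dg p * Y)).trace.re := by
      rw [← re_trace_dg_conjTranspose, conjTranspose_mul, conjTranspose_conjTranspose,
        ← Matrix.mul_assoc, trace_mul_comm]
    have h2 : (dg p * (Wᴴ * Y)).trace = (Wᴴ * (Y * dg p)).trace := by
      rw [trace_mul_comm, Matrix.mul_assoc]
    have h3 : (dg p * (Wᴴ * A j)).trace = (Wᴴ * (A j * dg p)).trace := by
      rw [trace_mul_comm, Matrix.mul_assoc]
    rw [h1, h2, h3, ← hY, Matrix.mul_add, trace_add, Complex.add_re, Matrix.mul_smul, trace_smul,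
      smul_eq_mul, Complex.re_ofReal_mul]
  simp only [hh, trace_Lsch_mul, Ladj_sub, Ladj_add, Ladj_smul, e1, e2, e3, e4]
  simp only [Matrix.mul_add, Matrix.mul_sub, Matrix.mul_smul, trace_add, trace_sub,
    trace_smul, smul_eq_mul, Complex.add_re, Complex.sub_re, Complex.re_ofReal_mul,
    re_trace_dg_conjTranspose, trace_sum, Complex.re_sum, sum_add_distrib,
    mul_sum, wsq_eq_trace]
  simp only [← mul_sum]
  linear_combination 2 * key

end

end Vale.Agent.P369.Ident
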