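import Vale.Agent.P369.IdentAlg
import Vale.Agent.P369.Fock.LogDeriv

/-!
P369: integrating the pointwise identity: `D' + D` dominates the profile functional.
-/

namespace Vale.Agent.P369.Ident

noncomputable section

open Matrix Finset Filter Real Vale.Agent.P369.Pins Vale.Agent.P369.Fock
open scoped ComplexConjugate Topology

set_option linter.unusedSectionVars false

theorem lamD_smul {s : ℝ} (hs : 0 < s) (x y : ℝ) : lamD (s * x) (s * y) = lamD x y / s := by
  rw [lamD, lamD, mul_div_mul_left _ _ hs.ne', div_div, mul_comm y s]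

theorem hasDerivAt_lamD_shift {x y u l : ℝ} (hx : 0 < x + l * u) (hy : 0 < y + l * u) :
    HasDerivAt (fun l => lamD (x + l * u) (y + l * u)) (-(u / ((x + l * u) * (y + l * u)))) l := by
  have hxl : HasDerivAt (fun l => x + l * u) u l := by
    simpa using ((hasDerivAt_id' l).mul_const u).const_add x
  have hyl : HasDerivAt (fun l => y + l * u) u l := by
    simpa using ((hasDerivAt_id' l).mul_const u).const_add y
  have hev : ∀ᶠ s in 𝓝 l, 0 < x + s * u ∧ 0 < y + s * u :=
    (hxl.continuousAt.eventually_const_lt hx).and (hyl.continuousAt.eventually_const_lt hy)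
  by_cases h : x = y
  · subst h
    refine ((hxl.inv hx.ne').congr_deriv ?_).congr_of_eventuallyEq (hev.mono fun s hs => ?_)
    · field_simp
    · simp only [Pi.inv_apply]
      rw [lamD_self hs.1, one_div]
  · have hne : x - y ≠ 0 := sub_ne_zero.2 h
    refine ((((hxl.log hx.ne').sub (hyl.log hy.ne')).div_const (x - y)).congr_deriv ?_).congr_of_eventuallyEq
      (hev.mono fun s hs => ?_)
    · rw [div_sub_div _ _ hx.ne' hy.ne', div_div, ← neg_div,
        div_eq_div_iff (mul_ne_zero (mul_pos hx hy).ne' hne) (mul_pos hx hy).ne']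
      ring
    · simp only [Pi.sub_apply]
      rw [← lamD_mul hs.1 hs.2, add_sub_add_right_eq_sub, mul_div_cancel_left₀ _ hne]

theorem hasDerivAt_mul_lamD {x u v l : ℝ} (hu : 0 < x + l * u) (hv : 0 < x + l * v) :
    HasDerivAt (fun l => l * lamD (x + l * u) (x + l * v))
      (x / ((x + l * u) * (x + l * v))) l := by
  have hul : HasDerivAt (fun l => x + l * u) u l := by
    simpa using ((hasDerivAt_id' l).mul_const u).const_add x
  have hvl : HasDerivAt (fun l => x + l * v) v l := by
    simpa using ((hasDerivAt_id' l).mul_const v).const_add x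
  have hev : ∀ᶠ s in 𝓝 l, 0 < x + s * u ∧ 0 < x + s * v :=
    (hul.continuousAt.eventually_const_lt hu).and (hvl.continuousAt.eventually_const_lt hv)
  by_cases h : u = v
  · subst h
    refine (((hasDerivAt_id' l).mul (hul.inv hu.ne')).congr_deriv ?_).congr_of_eventuallyEq
      (hev.mono fun s hs => ?_)
    · simp only [Pi.inv_apply]
      field_simp
      ring
    · simp only [Pi.mul_apply, Pi.inv_apply]
      rw [lamD_self hs.1, one_div]
  · have hne : u - v ≠ 0 := sub_ne_zero.2 h
    refine ((((hul.log hu.ne').sub (hvl.log hv.ne')).div_const (u - v)).congr_deriv ?_).congr_of_eventuallyEq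
      (hev.mono fun s hs => ?_)
    · rw [div_sub_div _ _ hu.ne' hv.ne', div_div,
        div_eq_div_iff (mul_ne_zero (mul_pos hu hv).ne' hne) (mul_pos hu hv).ne']
      ring
    · simp only [Pi.sub_apply]
      rw [← lamD_mul hs.1 hs.2, add_sub_add_left_eq_sub,
        show (s * u - s * v) * lamD (x + s * u) (x + s * v) =
          (u - v) * (s * lamD (x + s * u) (x + s * v)) by ring, mul_div_cancel_left₀ _ hne]

variable {ι : Type*} [Fintype ι] [DecidableEq ι] {n : ℕ}
  (κ : ℝ) (A : Fin n → Matrix ι ι ℂ) (p : ι → ℝ)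

/-- `ρ̇` in the eigenbasis -/
abbrev Bm : Matrix ι ι ℂ := Lsch A (dg p)

/-- coefficient of `w_kl` -/
def c1 (j : Fin n) (k l : ι) : ℝ :=
  -(2 * κ * (p l * ‖A j k l‖ ^ 2)) - (conj (A j k l) * (A j * Bm A p) k l).re

/-- coefficient of `w_kl w_k'l` -/
def c2 (j : Fin n) (k k' l : ι) : ℝ :=
  (Bm A p k k' * A j k' l * conj (A j k l)).re

/-- coefficient of `w_kl w_kl'` -/
def c3 (j : Fin n) (k l l' : ι) : ℝ :=
  (Bm A p l l' * conj (A j k l') * A j k l).re

/-- `w = p_l/(p_k + lam p_l)` -/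
def ww (lam : ℝ) (k l : ι) : ℝ := p l / (p k + lam * p l)

/-- explicit primitive of `Gam` -/
def prim (lam : ℝ) : ℝ :=
  ∑ j, ((∑ k, ∑ l, c1 κ A p j k l * Real.log (p k + lam * p l))
    + (∑ k, ∑ k', ∑ l, c2 A p j k k' l * (-(p l) * lamD (p k + lam * p l) (p k' + lam * p l)))
    + ∑ k, ∑ l, ∑ l', c3 A p j k l l' * (-(p l) * (lam * lamD (p k + lam * p l) (p k + lam * p l'))))

/-- its derivative, expanded -/
def primD (lam : ℝ) : ℝ :=
  ∑ j, ((∑ k, ∑ l, c1 κ A p j k l * ww p lam k l)
    + (∑ k, ∑ k', ∑ l, c2 A p j k k' l * (ww p lam k l * ww p lam k' l))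
    + ∑ k, ∑ l, ∑ l', c3 A p j k l l' * (-(ww p lam k l) * (p k / (p k + lam * p l'))))

variable {κ A p}

theorem den_pos (hp : ∀ k, 0 < p k) {lam : ℝ} (hl : 0 ≤ lam) (k l : ι) :
    0 < p k + lam * p l := add_pos_of_pos_of_nonneg (hp k) (mul_nonneg hl (hp l).le)

theorem hasDerivAt_prim (hp : ∀ k, 0 < p k) {lam : ℝ} (hl : 0 ≤ lam) :
    HasDerivAt (prim κ A p) (primD κ A p lam) lam := by
  unfold prim primD
  refine HasDerivAt.fun_sum fun j _ => ?_
  refine HasDerivAt.add (HasDerivAt.add ?_ ?_) ?_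
  · refine HasDerivAt.fun_sum fun k _ => HasDerivAt.fun_sum fun l _ => ?_
    refine HasDerivAt.const_mul _ ?_
    have := (((hasDerivAt_id' lam).mul_const (p l)).const_add (p k)).log (den_pos hp hl k l).ne'
    exact this.congr_deriv (by rw [one_mul]; rfl)
  · refine HasDerivAt.fun_sum fun k _ => HasDerivAt.fun_sum fun k' _ =>
      HasDerivAt.fun_sum fun l _ => ?_
    refine HasDerivAt.const_mul _ ?_
    refine ((hasDerivAt_lamD_shift (den_pos hp hl k l) (den_pos hp hl k' l)).const_mul
      (-(p l))).congr_deriv ?_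
    simp only [ww]
    rw [div_mul_div_comm]
    ring
  · refine HasDerivAt.fun_sum fun k _ => HasDerivAt.fun_sum fun l _ =>
      HasDerivAt.fun_sum fun l' _ => ?_
    refine HasDerivAt.const_mul _ ?_
    refine ((hasDerivAt_mul_lamD (den_pos hp hl k l) (den_pos hp hl k l')).const_mul
      (-(p l))).congr_deriv ?_
    simp only [ww]
    rw [neg_mul, neg_mul, div_mul_div_comm, mul_div_assoc]

theorem Bm_conjTranspose : (Bm A p)ᴴ = Bm A p := by
  simp only [Bm, Lsch, conjTranspose_sum]
  refine sum_congr rfl fun i _ => ?_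
  simp only [conjTranspose_sub, conjTranspose_smul, conjTranspose_add, conjTranspose_mul,
    conjTranspose_conjTranspose, dg_conjTranspose, Matrix.mul_assoc, star_inv₀, star_ofNat]
  rw [add_comm (dg p * ((A i)ᴴ * A i))]

theorem Bm_conj (k l : ι) : conj (Bm A p k l) = Bm A p l k := by
  have := congrFun (congrFun (Bm_conjTranspose (A := A) (p := p)) l) k
  simpa [conjTranspose_apply] using this

theorem Yop_mem (hp : ∀ k, 0 < p k) {lam : ℝ} (hl : 0 ≤ lam) (j : Fin n) :
    dg p * Yop A p lam j + (lam : ℂ) • (Yop A p lam j * dg p) = A j * dg p := by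
  ext k l
  simp only [dg, Matrix.add_apply, Matrix.smul_apply, diagonal_mul, mul_diagonal, Yop, of_apply,
    smul_eq_mul]
  have h : p l / (p k + lam * p l) * (p k + lam * p l) = p l :=
    div_mul_cancel₀ _ (den_pos hp hl k l).ne'
  have hc := congrArg (fun x : ℝ => (x : ℂ)) h
  simp only [Complex.ofReal_mul, Complex.ofReal_add] at hc
  linear_combination A j k l * hc

theorem sum_c3 (j : Fin n) (k l : ι) :
    ∑ l', c3 A p j k l l' = (conj (A j k l) * (A j * Bm A p) k l).re := by
  rw [mul_apply, mul_sum, Complex.re_sum]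
  refine sum_congr rfl fun l' _ => ?_
  rw [c3, ← Complex.conj_re (conj (A j k l) * (A j k l' * Bm A p l' l))]
  simp only [map_mul, Complex.conj_conj, Bm_conj]
  ring_nf

/-- the primitive differentiates to `Gam` -/
theorem primD_eq_Gam (hA : Low κ A) (hp : ∀ k, 0 < p k) {lam : ℝ} (hl : 0 ≤ lam) :
    primD κ A p lam = Gam A p lam := by
  rw [primD, Gam, sum_comm]
  refine sum_congr rfl fun j _ => ?_
  rw [← neg_hh hA p lam j (Yop_mem hp hl j)]
  set Y := Yop A p lam j with hYdef
  have hY : ∀ k l, Y k l = A j k l * (ww p lam k l : ℂ) := fun k l => rfl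
  have hY' : ∀ k l, conj (Y k l) = conj (A j k l) * (ww p lam k l : ℂ) := fun k l => by
    rw [hY, map_mul, Complex.conj_ofReal]
  have t0 : (dg p * (Yᴴ * A j)).trace.re =
      ∑ k, ∑ l, p l * ‖A j k l‖ ^ 2 * ww p lam k l := by
    rw [trace, Complex.re_sum, sum_comm]
    refine sum_congr rfl fun l _ => ?_
    rw [diag_apply, dg, diagonal_mul, Complex.re_ofReal_mul, mul_apply, Complex.re_sum, mul_sum]
    refine sum_congr rfl fun k _ => ?_
    rw [conjTranspose_apply, RCLike.star_def, hY', Complex.sq_norm]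
    rw [mul_right_comm, ← Complex.normSq_eq_conj_mul_self, ← Complex.ofReal_mul, Complex.ofReal_re]
    ring
  have t1 : (Bm A p * (Yᴴ * A j)).trace.re =
      ∑ k, ∑ l, ww p lam k l * (conj (A j k l) * (A j * Bm A p) k l).re := by
    rw [trace_mul_comm, Matrix.mul_assoc, trace, Complex.re_sum, sum_comm]
    refine sum_congr rfl fun l _ => ?_
    rw [diag_apply, mul_apply, Complex.re_sum]
    refine sum_congr rfl fun k _ => ?_
    rw [conjTranspose_apply, RCLike.star_def, hY', mul_right_comm, mul_comm,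
      Complex.re_ofReal_mul]
  have t1' : (Bm A p * ((A j)ᴴ * Y)).trace.re = (Bm A p * (Yᴴ * A j)).trace.re := by
    rw [← Complex.conj_re, ← RCLike.star_def, ← trace_conjTranspose, conjTranspose_mul,
      conjTranspose_mul, conjTranspose_conjTranspose, Bm_conjTranspose, trace_mul_comm]
  have t2 : (Bm A p * (Y * Yᴴ)).trace.re =
      ∑ k, ∑ k', ∑ l, c2 A p j k k' l * (ww p lam k l * ww p lam k' l) := by
    rw [trace, Complex.re_sum]
    refine sum_congr rfl fun k _ => ?_
    rw [diag_apply, mul_apply, Complex.re_sum]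
    refine sum_congr rfl fun k' _ => ?_
    rw [mul_apply, mul_sum, Complex.re_sum]
    refine sum_congr rfl fun l _ => ?_
    rw [conjTranspose_apply, RCLike.star_def, hY', hY, c2,
      show Bm A p k k' * (A j k' l * (ww p lam k' l : ℂ) * (conj (A j k l) * (ww p lam k l : ℂ))) =
        ((ww p lam k l * ww p lam k' l : ℝ) : ℂ) * (Bm A p k k' * A j k' l * conj (A j k l)) by
        push_cast; ring, Complex.re_ofReal_mul]
    ring
  have t3 : (Bm A p * (Yᴴ * Y)).trace.re =
      ∑ k, ∑ l, ∑ l', c3 A p j k l l' * (ww p lam k l * ww p lam k l') := by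
    rw [trace, Complex.re_sum]
    rw [show ∑ k, ∑ l, ∑ l', c3 A p j k l l' * (ww p lam k l * ww p lam k l') =
      ∑ l, ∑ l', ∑ k, c3 A p j k l l' * (ww p lam k l * ww p lam k l') by
      rw [sum_comm]; exact sum_congr rfl fun _ _ => sum_comm]
    refine sum_congr rfl fun l _ => ?_
    rw [diag_apply, mul_apply, Complex.re_sum]
    refine sum_congr rfl fun l' _ => ?_
    rw [mul_apply, mul_sum, Complex.re_sum]
    refine sum_congr rfl fun k _ => ?_
    rw [conjTranspose_apply, RCLike.star_def, hY', hY, c3,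
      show Bm A p l l' * (conj (A j k l') * (ww p lam k l' : ℂ) * (A j k l * (ww p lam k l : ℂ))) =
        ((ww p lam k l * ww p lam k l' : ℝ) : ℂ) * (Bm A p l l' * conj (A j k l') * A j k l) by
        push_cast; ring, Complex.re_ofReal_mul]
    ring
  simp only [hh, Matrix.mul_add, Matrix.mul_sub, Matrix.mul_smul, trace_add, trace_sub, trace_smul,
    smul_eq_mul, Complex.add_re, Complex.sub_re, Complex.re_ofReal_mul]
  rw [t0, t1', t1, t2, t3]
  have h3 : ∑ k, ∑ l, ∑ l', c3 A p j k l l' * (-(ww p lam k l) * (p k / (p k + lam * p l'))) =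
      lam * (∑ k, ∑ l, ∑ l', c3 A p j k l l' * (ww p lam k l * ww p lam k l'))
        - ∑ k, ∑ l, ww p lam k l * (conj (A j k l) * (A j * Bm A p) k l).re := by
    simp only [← sum_c3, mul_sum, ← sum_sub_distrib]
    refine sum_congr rfl fun k _ => sum_congr rfl fun l _ => sum_congr rfl fun l' _ => ?_
    have h := (den_pos hp hl k l').ne'
    simp only [ww]
    field_simp
    ring
  rw [h3]
  have h1 : ∑ k, ∑ l, c1 κ A p j k l * ww p lam k l =
      -(2 * κ * ∑ k, ∑ l, p l * ‖A j k l‖ ^ 2 * ww p lam k l)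
        - ∑ k, ∑ l, ww p lam k l * (conj (A j k l) * (A j * Bm A p) k l).re := by
    simp only [mul_sum, ← sum_neg_distrib, ← sum_sub_distrib]
    refine sum_congr rfl fun k _ => sum_congr rfl fun l _ => ?_
    rw [c1]; ring
  rw [h1]
  ring

/-- `D` in the eigenbasis -/
def dval (A : Fin n → Matrix ι ι ℂ) (p : ι → ℝ) : ℝ :=
  (Bm A p * dg fun k => Real.log (p k)).trace.re

/-- `D'` in the eigenbasis -/
def d1val (A : Fin n → Matrix ι ι ℂ) (p : ι → ℝ) : ℝ :=
  (Lsch A (Bm A p) * dg fun k => Real.log (p k)).trace.re +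
    (Bm A p * Matrix.of fun k l => (lamD (p k) (p l) : ℂ) * Bm A p k l).trace.re

theorem trace_diag_quad (a : Matrix ι ι ℂ) (X : Matrix ι ι ℂ) (hX : Xᴴ = X) (g : ι → ℝ) :
    ((a * X * aᴴ - (2 : ℂ)⁻¹ • (aᴴ * a * X + X * (aᴴ * a))) * dg g).trace.re =
      ∑ k, ∑ l, (conj (a k l) * (a * X) k l).re * (g k - g l) := by
  have hN : ∀ l, ((X * (aᴴ * a)) l l).re = ((aᴴ * a * X) l l).re := fun l => by
    conv_lhs => rw [← conjTranspose_conjTranspose (X * (aᴴ * a))]
    rw [conjTranspose_apply, RCLike.star_def, Complex.conj_re]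
    simp only [conjTranspose_mul, conjTranspose_conjTranspose, hX]
  have hd : ∀ M : Matrix ι ι ℂ, (M * dg g).trace.re = ∑ k, g k * (M k k).re := fun M => by
    rw [trace, Complex.re_sum]
    refine sum_congr rfl fun k _ => ?_
    rw [diag_apply, dg, mul_diagonal, Complex.re_mul_ofReal, mul_comm]
  rw [hd]
  simp only [Matrix.sub_apply, Matrix.smul_apply, Matrix.add_apply, smul_eq_mul, Complex.sub_re]
  have h2 : ∀ z : ℂ, ((2 : ℂ)⁻¹ * z).re = z.re / 2 := fun z => by
    rw [Complex.mul_re]; norm_num; ring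
  simp only [h2, Complex.add_re, hN]
  have e1 : ∀ k, ((a * X * aᴴ) k k).re = ∑ l, (conj (a k l) * (a * X) k l).re := fun k => by
    rw [mul_apply, Complex.re_sum]
    refine sum_congr rfl fun l _ => ?_
    rw [conjTranspose_apply, RCLike.star_def, mul_comm]
  have e2 : ∀ l, ((aᴴ * a * X) l l).re = ∑ k, (conj (a k l) * (a * X) k l).re := fun l => by
    rw [Matrix.mul_assoc, mul_apply, Complex.re_sum]
    refine sum_congr rfl fun k _ => ?_
    rw [conjTranspose_apply, RCLike.star_def]
  simp only [e1, e2, mul_sub, sum_sub_distrib, add_self_div_two, mul_sum]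
  rw [sum_comm (f := fun l k => g l * (conj (a k l) * (a * X) k l).re)]
  simp only [mul_comm (g _)]

theorem dval_eq : dval A p =
    ∑ j, ∑ k, ∑ l, p l * ‖A j k l‖ ^ 2 * (Real.log (p k) - Real.log (p l)) := by
  rw [dval, Bm, Lsch, Matrix.sum_mul, trace_sum, Complex.re_sum]
  refine sum_congr rfl fun j _ => ?_
  rw [trace_diag_quad _ _ (dg_conjTranspose p)]
  refine sum_congr rfl fun k _ => sum_congr rfl fun l _ => ?_
  rw [dg, mul_diagonal, ← mul_assoc, ← Complex.normSq_eq_conj_mul_self, ← Complex.ofReal_mul,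
    Complex.ofReal_re, Complex.sq_norm]
  ring

theorem lamD_comm {x y : ℝ} (hx : 0 < x) (hy : 0 < y) : lamD x y = lamD y x := by
  by_cases h : x = y
  · rw [h]
  have h1 := lamD_mul hx hy
  have h2 := lamD_mul hy hx
  have : (x - y) * (lamD x y - lamD y x) = 0 := by linear_combination h1 + h2
  rcases mul_eq_zero.1 this with h' | h'
  · exact absurd (sub_eq_zero.1 h') h
  · linarith [h']

theorem d1val_eq (hp : ∀ k, 0 < p k) : d1val A p =
    ∑ j, ((∑ k, ∑ l, (conj (A j k l) * (A j * Bm A p) k l).re * (Real.log (p k) - Real.log (p l)))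
      + (∑ k, ∑ k', ∑ l, c2 A p j k k' l * (p l * lamD (p k) (p k')))
      - ∑ k, ∑ l, ∑ l', c3 A p j k l l' * (p l * lamD (p l) (p l'))) := by
  set X : Matrix ι ι ℂ := Matrix.of fun k l => (lamD (p k) (p l) : ℂ) * Bm A p k l with hX
  have hXh : Xᴴ = X := by
    ext k l
    rw [conjTranspose_apply, hX, of_apply, of_apply, RCLike.star_def, map_mul, Complex.conj_ofReal,
      Bm_conj, lamD_comm (hp l) (hp k)]
  have hlast : (Bm A p * X).trace.re =
      ∑ j, ((∑ k, ∑ k', ∑ l, c2 A p j k k' l * (p l * lamD (p k) (p k')))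
        - ∑ k, ∑ l, ∑ l', c3 A p j k l l' * (p l * lamD (p l) (p l'))) := by
    conv_lhs => rw [show Bm A p = Lsch A (dg p) from rfl, Lsch, Matrix.sum_mul, trace_sum,
      Complex.re_sum]
    refine sum_congr rfl fun j _ => ?_
    have hsym : (dg p * ((A j)ᴴ * A j) * X).trace.re = ((A j)ᴴ * A j * dg p * X).trace.re := by
      rw [← Complex.conj_re, ← RCLike.star_def, ← trace_conjTranspose, conjTranspose_mul,
        conjTranspose_mul, conjTranspose_mul, conjTranspose_conjTranspose, hXh, dg_conjTranspose,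
        trace_mul_comm]
    have h2 : ∀ z : ℂ, ((2 : ℂ)⁻¹ * z).re = z.re / 2 := fun z => by
      rw [Complex.mul_re]; norm_num; ring
    rw [Matrix.sub_mul, Matrix.smul_mul, Matrix.add_mul, trace_sub, trace_smul, trace_add,
      Complex.sub_re, smul_eq_mul, h2, Complex.add_re, hsym, add_self_div_two]
    congr 1
    · rw [trace, Complex.re_sum, sum_comm]
      refine sum_congr rfl fun k' _ => ?_
      rw [diag_apply, mul_apply, Complex.re_sum]
      refine sum_congr rfl fun k _ => ?_
      rw [mul_apply, Finset.sum_mul, Complex.re_sum]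
      refine sum_congr rfl fun l _ => ?_
      rw [conjTranspose_apply, dg, mul_diagonal, hX, of_apply, RCLike.star_def, c2,
        show A j k' l * (p l : ℂ) * conj (A j k l) * ((lamD (p k) (p k') : ℂ) * Bm A p k k') =
          ((p l * lamD (p k) (p k') : ℝ) : ℂ) * (Bm A p k k' * A j k' l * conj (A j k l)) by
          push_cast; ring, Complex.re_ofReal_mul]
      ring
    · rw [show ∑ k, ∑ l, ∑ l', c3 A p j k l l' * (p l * lamD (p l) (p l')) =
          ∑ l', ∑ l, ∑ k, c3 A p j k l l' * (p l * lamD (p l) (p l')) by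
          rw [sum_comm]; rw [sum_congr rfl fun _ _ => sum_comm]; rw [sum_comm]]
      rw [trace, Complex.re_sum]
      refine sum_congr rfl fun l' _ => ?_
      rw [diag_apply, mul_apply, Complex.re_sum]
      refine sum_congr rfl fun l _ => ?_
      rw [dg, mul_diagonal, mul_apply, Finset.sum_mul, Finset.sum_mul, Complex.re_sum]
      refine sum_congr rfl fun k _ => ?_
      rw [conjTranspose_apply, hX, of_apply, RCLike.star_def, c3,
        show conj (A j k l') * A j k l * (p l : ℂ) * ((lamD (p l) (p l') : ℂ) * Bm A p l l') =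
          ((p l * lamD (p l) (p l') : ℝ) : ℂ) * (Bm A p l l' * conj (A j k l') * A j k l) by
          push_cast; ring, Complex.re_ofReal_mul]
      ring
  rw [d1val, hlast]
  conv_lhs => rw [show Lsch A (Bm A p) = ∑ i, (A i * Bm A p * (A i)ᴴ - (2 : ℂ)⁻¹ •
      ((A i)ᴴ * A i * Bm A p + Bm A p * ((A i)ᴴ * A i))) from rfl, Matrix.sum_mul, trace_sum,
      Complex.re_sum, ← sum_add_distrib]
  refine sum_congr rfl fun j _ => ?_
  rw [trace_diag_quad _ _ Bm_conjTranspose]
  ring

theorem sum_c1 (hA : Low κ A) : ∑ j, ∑ k, ∑ l, c1 κ A p j k l = 0 := by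
  refine sum_eq_zero fun j _ => ?_
  have e : ∀ X : Matrix ι ι ℂ, ((A j)ᴴ * A j * X).trace.re =
      ∑ k, ∑ l, (conj (A j k l) * (A j * X) k l).re := fun X => by
    rw [Matrix.mul_assoc, trace, Complex.re_sum, sum_comm]
    refine sum_congr rfl fun l _ => ?_
    rw [diag_apply, mul_apply, Complex.re_sum]
    refine sum_congr rfl fun k _ => ?_
    rw [conjTranspose_apply, RCLike.star_def]
  have h : ((A j)ᴴ * A j * Bm A p).trace.re =
      -(2 * κ * ((A j)ᴴ * A j * dg p).trace.re) := by
    rw [trace_mul_comm, Bm, trace_Lsch_mul, hA.num, Matrix.mul_neg, trace_neg, Complex.neg_re,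
      Matrix.mul_smul, trace_smul, smul_eq_mul, Complex.re_ofReal_mul, trace_mul_comm]
  rw [e, e] at h
  have h0 : ∀ k l, (conj (A j k l) * (A j * dg p) k l).re = p l * ‖A j k l‖ ^ 2 := fun k l => by
    rw [dg, mul_diagonal, ← mul_assoc, ← Complex.normSq_eq_conj_mul_self, ← Complex.ofReal_mul,
      Complex.ofReal_re, Complex.sq_norm, mul_comm]
  simp only [h0] at h
  simp only [c1, sum_sub_distrib, sum_neg_distrib, ← mul_sum]
  linarith

theorem tendsto_lamD_pair {f : ℝ → ℝ × ℝ} {u v : ℝ} (hu : 0 < u) (hv : 0 < v)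
    (hf : Tendsto f atTop (𝓝 (u, v))) :
    Tendsto (fun s : ℝ => lamD (f s).1 (f s).2) atTop (𝓝 (lamD u v)) := by
  have hc := (continuousAt_lamD hu hv).tendsto
  exact hc.comp hf

theorem tendsto_const_div_add (x u : ℝ) :
    Tendsto (fun s : ℝ => x / s + u) atTop (𝓝 u) := by
  simpa using (tendsto_id.const_div_atTop x).add_const u

theorem tendsto_lamD_scaled (x y : ℝ) {u v : ℝ} (hu : 0 < u) (hv : 0 < v) :
    Tendsto (fun s : ℝ => s * lamD (x + s * u) (y + s * v)) atTop (𝓝 (lamD u v)) := by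
  refine Tendsto.congr' ?_ (tendsto_lamD_pair (f := fun s : ℝ => (x / s + u, y / s + v)) hu hv
    ((tendsto_const_div_add x u).prodMk_nhds (tendsto_const_div_add y v)))
  filter_upwards [eventually_gt_atTop (0:ℝ)] with s hs
  have h1 : x + s * u = s * (x / s + u) := by rw [mul_add, mul_div_cancel₀ _ hs.ne']
  have h2 : y + s * v = s * (y / s + v) := by rw [mul_add, mul_div_cancel₀ _ hs.ne']
  rw [h1, h2, lamD_smul hs, mul_div_cancel₀ _ hs.ne']

theorem tendsto_part1 (hA : Low κ A) (hp : ∀ k, 0 < p k) :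
    Tendsto (fun s => ∑ j, ∑ k, ∑ l, c1 κ A p j k l *
      (Real.log (p k + s * p l) - Real.log (p k))) atTop
      (𝓝 (∑ j, ∑ k, ∑ l, c1 κ A p j k l * (Real.log (p l) - Real.log (p k)))) := by
  have hlog : ∀ k l, Tendsto (fun s => Real.log (p k / s + p l)) atTop (𝓝 (Real.log (p l))) :=
    fun k l => by
    have : Tendsto (fun s => p k / s + p l) atTop (𝓝 (p l)) := by
      simpa using (tendsto_id.const_div_atTop (p k)).add_const (p l)
    exact (Real.continuousAt_log (hp l).ne').tendsto.comp this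
  have : Tendsto (fun s => ∑ j, ∑ k, ∑ l, c1 κ A p j k l *
      (Real.log (p k / s + p l) - Real.log (p k))) atTop
      (𝓝 (∑ j, ∑ k, ∑ l, c1 κ A p j k l * (Real.log (p l) - Real.log (p k)))) :=
    tendsto_finsetSum _ fun j _ => tendsto_finsetSum _ fun k _ => tendsto_finsetSum _ fun l _ =>
      ((hlog k l).sub_const _).const_mul _
  refine this.congr' ?_
  filter_upwards [eventually_gt_atTop 0] with s hs
  have e : ∀ k l, Real.log (p k + s * p l) = Real.log s + Real.log (p k / s + p l) := by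
    intro k l
    rw [← Real.log_mul hs.ne' (add_pos (div_pos (hp k) hs) (hp l)).ne', mul_add,
      mul_div_cancel₀ _ hs.ne']
  simp only [e, add_sub_assoc, mul_add, sum_add_distrib, ← sum_mul, sum_c1 hA, zero_mul, zero_add]

theorem tendsto_part2 (hp : ∀ k, 0 < p k) :
    Tendsto (fun s => ∑ j, ∑ k, ∑ k', ∑ l, c2 A p j k k' l *
      (-(p l) * lamD (p k + s * p l) (p k' + s * p l) + p l * lamD (p k) (p k'))) atTop
      (𝓝 (∑ j, ∑ k, ∑ k', ∑ l, c2 A p j k k' l * (p l * lamD (p k) (p k')))) := by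
  refine tendsto_finsetSum _ fun j _ => tendsto_finsetSum _ fun k _ => tendsto_finsetSum _
    fun k' _ => tendsto_finsetSum _ fun l _ => ?_
  refine Tendsto.const_mul _ ?_
  have h := ((tendsto_lamD_scaled (p k) (p k') (hp l) (hp l)).div_atTop tendsto_id).const_mul (-(p l))
  rw [mul_zero] at h
  have h' := h.add_const (p l * lamD (p k) (p k'))
  rw [zero_add] at h'
  refine h'.congr' ?_
  filter_upwards [eventually_gt_atTop 0] with s hs
  rw [id_eq, mul_div_cancel_left₀ _ hs.ne']

theorem tendsto_part3 (hp : ∀ k, 0 < p k) :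
    Tendsto (fun s => ∑ j, ∑ k, ∑ l, ∑ l', c3 A p j k l l' *
      (-(p l) * (s * lamD (p k + s * p l) (p k + s * p l')))) atTop
      (𝓝 (∑ j, ∑ k, ∑ l, ∑ l', c3 A p j k l l' * (-(p l) * lamD (p l) (p l')))) :=
  tendsto_finsetSum _ fun j _ => tendsto_finsetSum _ fun k _ => tendsto_finsetSum _
    fun l _ => tendsto_finsetSum _ fun l' _ =>
      ((tendsto_lamD_scaled (p k) (p k) (hp l) (hp l')).const_mul _).const_mul _

theorem limit_eq (hp : ∀ k, 0 < p k) : d1val A p + 2 * κ * dval A p =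
    ∑ j, ∑ k, ∑ l, c1 κ A p j k l * (Real.log (p l) - Real.log (p k))
    + ∑ j, ∑ k, ∑ k', ∑ l, c2 A p j k k' l * (p l * lamD (p k) (p k'))
    + ∑ j, ∑ k, ∑ l, ∑ l', c3 A p j k l l' * (-(p l) * lamD (p l) (p l')) := by
  rw [d1val_eq hp, dval_eq, mul_sum]
  simp only [← sum_add_distrib]
  refine sum_congr rfl fun j _ => ?_
  simp only [c1, neg_mul, mul_neg, sub_mul, sum_add_distrib, sum_neg_distrib, mul_sub,
    sum_sub_distrib, mul_assoc, ← mul_sum]
  ring

theorem prim_sub (s : ℝ) : prim κ A p s - prim κ A p 0 =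
    ∑ j, ∑ k, ∑ l, c1 κ A p j k l * (Real.log (p k + s * p l) - Real.log (p k))
    + ∑ j, ∑ k, ∑ k', ∑ l, c2 A p j k k' l *
      (-(p l) * lamD (p k + s * p l) (p k' + s * p l) + p l * lamD (p k) (p k'))
    + ∑ j, ∑ k, ∑ l, ∑ l', c3 A p j k l l' *
      (-(p l) * (s * lamD (p k + s * p l) (p k + s * p l'))) := by
  simp only [prim, zero_mul, add_zero, mul_zero, ← sum_sub_distrib, ← sum_add_distrib]
  refine sum_congr rfl fun j _ => ?_
  simp only [mul_add, mul_sub, neg_mul, mul_neg, sum_add_distrib, sum_sub_distrib, sum_neg_distrib,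
    sum_const_zero, add_zero]
  ring

/-- `prim ∞ - prim 0 = D' + D` -/
theorem tendsto_prim (hA : Low κ A) (hp : ∀ k, 0 < p k) :
    Tendsto (fun s => prim κ A p s - prim κ A p 0) atTop (𝓝 (d1val A p + 2 * κ * dval A p)) := by
  rw [limit_eq hp]
  exact (((tendsto_part1 hA hp).add (tendsto_part2 hp)).add (tendsto_part3 hp)).congr
    fun s => (prim_sub s).symm

end

end Vale.Agent.P369.Ident
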