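import Vale.Agent.P369.Fock.Defs

/-!
P369: the pinned algebraic inequality (repaired step (b)). A definition only, never a hypothesis of a hand-in.

Everything is written in the eigenbasis `V` of a full-rank state with eigenvalues `p`:
`A j = Vᴴ a_j V`, and `Y j` solves `ρ Y + l Y ρ = a ρ`.
-/

namespace Vale.Agent.P369.Pins

noncomputable section

open Matrix Finset Vale.Agent.P369.Fock

variable {ι : Type*} [Fintype ι] [DecidableEq ι] {n : ℕ}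

/-- `Y`: entries `a_kl p_l / (p_k + l p_l)` -/
def Yop (A : Fin n → Matrix ι ι ℂ) (p : ι → ℝ) (lam : ℝ) (j : Fin n) : Matrix ι ι ℂ :=
  Matrix.of fun k l => A j k l * ((p l / (p k + lam * p l) : ℝ) : ℂ)

/-- `Tr ρ X† X` for `ρ = diag p` -/
def wsq (p : ι → ℝ) (X : Matrix ι ι ℂ) : ℝ := ∑ l, p l * ∑ k, ‖X k l‖ ^ 2

/-- `∑_{ij} Tr ρ (l |[a_i,Y_j]|² + |[a_i,Y_j†]|²)` -/
def Gam (A : Fin n → Matrix ι ι ℂ) (p : ι → ℝ) (lam : ℝ) : ℝ :=
  ∑ i, ∑ j, (lam * wsq p (A i * Yop A p lam j - Yop A p lam j * A i)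
    + wsq p (A i * (Yop A p lam j)ᴴ - (Yop A p lam j)ᴴ * A i))

/-- `∑_j Tr ρ [Y_j, Y_j†]` -/
def YY (A : Fin n → Matrix ι ι ℂ) (p : ι → ℝ) (lam : ℝ) : ℝ :=
  ∑ j, ∑ k, ∑ l, ‖Yop A p lam j k l‖ ^ 2 * (p k - p l)

/-- The key inequality for the annihilators of the box, in any orthonormal basis. -/
def Key (n K : ℕ) : Prop :=
  ∀ (V : Matrix (Box n K) (Box n K) ℂ) (p : Box n K → ℝ),
    Vᴴ * V = 1 → V * Vᴴ = 1 → (∀ k, 0 < p k) → ∑ k, p k = 1 → ∀ lam : ℝ, 0 < lam →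
      YY (fun j => Vᴴ * ann j * V) p lam ≤ Gam (fun j => Vᴴ * ann j * V) p lam

end

end Vale.Agent.P369.Pins
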