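import Mathlib

/-!
# P369: the scalar tangent lemma

With `T x l = x/(1+l x)`, `phi c x r = r/(1+c r) + ∫_0^c 2 T_x T_r` and `d x = x(-log x)/(1-x)`,
for every `x ∈ (0,1)` there is a cut `c > 0` such that the affine function of `d r` which is tangent
to `phi c x r` at `r = x` lies on the correct side for every `r ≥ 0` (the side flips at `r = 1`).
-/

namespace Vale.Agent.P369.Scalar

open Real Set

/-- The thermal profile `x/(1+lx)`. -/
noncomputable def T (x l : ℝ) : ℝ := x / (1 + l * x)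

/-- The linearised lower bound: tangent of the square on `(0,c)`, tail value beyond `c`. -/
noncomputable def phi (c x r : ℝ) : ℝ :=
  r / (1 + c * r) + ∫ l in (0:ℝ)..c, 2 * (T x l * T r l)

/-- `x = N/(N+1)` gives `d x = N log(1+1/N)`. -/
noncomputable def d (x : ℝ) : ℝ := x * (-log x) / (1 - x)

/-- The slope `1/d'(x)`. -/
noncomputable def B (x : ℝ) : ℝ := (1 - x) ^ 2 / (-log x - (1 - x))

section LogBounds

variable {x : ℝ}

lemma one_sub_lt_neg_log (hx : 0 < x) (hx1 : x < 1) : 1 - x < -log x := by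
  linarith [log_lt_sub_one_of_pos hx hx1.ne]

lemma mul_neg_log_lt (hx : 0 < x) (hx1 : x < 1) : x * (-log x) < 1 - x := by
  have h := log_lt_sub_one_of_pos (inv_pos.2 hx)
    (by intro h; rw [inv_eq_one] at h; linarith)
  rw [log_inv] at h
  have := mul_lt_mul_of_pos_left h hx
  rw [mul_sub, mul_inv_cancel₀ hx.ne'] at this
  linarith

lemma two_mul_lt_neg_log (hx : 0 < x) (hx1 : x < 1) :
    2 * (1 - x) < (1 + x) * (-log x) := by
  have hu : (0:ℝ) < 1 / x - 1 := by rw [sub_pos, lt_div_iff₀ hx]; linarith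
  have h := lt_log_one_add_of_pos hu
  have e1 : log (1 + (1 / x - 1)) = -log x := by
    rw [show (1:ℝ) + (1 / x - 1) = x⁻¹ by ring, log_inv]
  have e2 : 2 * (1 / x - 1) / (1 / x - 1 + 2) = 2 * (1 - x) / (1 + x) := by
    have h1 : (0:ℝ) < 1 + x := by linarith
    rw [show (1:ℝ) / x - 1 + 2 = (1 + x) / x by field_simp; ring,
      show (2:ℝ) * (1 / x - 1) = 2 * (1 - x) / x by field_simp]
    field_simp
  rw [e1, e2, div_lt_iff₀ (by linarith)] at h
  linarith

lemma neg_log_lt_sinh (hx : 0 < x) (hx1 : x < 1) : 2 * x * (-log x) < 1 - x ^ 2 := by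
  have hL : 0 < -log x := neg_pos.2 (log_neg hx hx1)
  have h := self_lt_sinh_iff.2 hL
  rw [sinh_eq, exp_neg, exp_log hx, neg_neg, exp_log hx] at h
  have := mul_lt_mul_of_pos_left h (by positivity : (0:ℝ) < 2 * x)
  rw [show 2 * x * ((x⁻¹ - x) / 2) = x * x⁻¹ - x ^ 2 by ring, mul_inv_cancel₀ hx.ne'] at this
  exact this

/-- The sharp bound needed at `c = ∞`. -/
lemma sharp_log_bound (hx : 0 < x) (hx1 : x < 1) :
    2 * x * (-log x - (1 - x)) ^ 2 + (1 - x) ^ 2 * (x * (-log x)) < (1 - x) ^ 3 := by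
  let R : ℝ → ℝ := fun q =>
    (q ^ 2 - 9) / (q ^ 2 - 1) + ((q ^ 2 - 9) / (q ^ 2 - 1)) ^ 2 * (q - 1) / 4
      - log ((q ^ 2 - 1) / 8)
  have hR : StrictMonoOn R (Ici (3:ℝ)) := by
    apply strictMonoOn_of_hasDerivWithinAt_pos
      (f' := fun q => (q ^ 2 - 9) * (q - 1) * (q - 3) ^ 2 / (4 * (q ^ 2 - 1) ^ 2 * (q + 1)))
      (convex_Ici 3)
    · intro q hq
      have : (8:ℝ) ≤ q ^ 2 - 1 := by nlinarith [mem_Ici.1 hq]
      apply ContinuousAt.continuousWithinAt
      fun_prop (disch := positivity)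
    · intro q hq
      rw [interior_Ici, mem_Ioi] at hq
      have h1 : (0:ℝ) < q ^ 2 - 1 := by nlinarith
      have hn := (hasDerivAt_id' q).pow 2 |>.sub_const (9:ℝ)
      have hd := (hasDerivAt_id' q).pow 2 |>.sub_const (1:ℝ)
      have he := hn.div hd h1.ne'
      have hl := (hd.div_const 8).log (by positivity)
      have := (he.add (((he.pow 2).mul ((hasDerivAt_id' q).sub_const 1)).div_const 4)).sub hl
      refine (this.congr_deriv ?_).hasDerivWithinAt
      have : q + 1 ≠ 0 := by linarith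
      simp only [Nat.cast_ofNat, Pi.pow_apply, Pi.div_apply, pow_one, mul_one,
        Nat.reduceSub]
      field_simp
      ring
    · intro q hq
      rw [interior_Ici, mem_Ioi] at hq
      have h1 : (0:ℝ) < q ^ 2 - 1 := by nlinarith
      have h9 : (0:ℝ) < q ^ 2 - 9 := by nlinarith
      have : (0:ℝ) < q - 1 := by linarith
      have : (0:ℝ) < q - 3 := by linarith
      have : (0:ℝ) < q + 1 := by linarith
      positivity
  set q := √(1 + 8 / x) with hqdef
  have hq2 : q ^ 2 = 1 + 8 / x := sq_sqrt (by positivity)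
  have hq3 : 3 < q := by
    rw [hqdef, lt_sqrt (by norm_num)]
    have : (8:ℝ) < 8 / x := by rw [lt_div_iff₀ hx]; linarith
    linarith
  have h := hR self_mem_Ici (mem_Ici.2 hq3.le) hq3
  simp only [R] at h
  norm_num at h
  rw [hq2] at h
  have he : (1 + 8 / x - 9) / (1 + 8 / x - 1) = 1 - x := by field_simp; ring
  have hl : log ((1 + 8 / x - 1) / 8) = -log x := by
    rw [show (1 + 8 / x - 1) / 8 = x⁻¹ by ring, log_inv]
  rw [he, hl] at h
  set D := -log x - (1 - x) with hD
  set z := (1 - x) ^ 2 * (q - 1) / 4 with hz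
  have hD0 : 0 < D := by rw [hD]; linarith [one_sub_lt_neg_log hx hx1]
  have hDz : D < z := by rw [hD]; linarith
  have key : 2 * x * z ^ 2 + (1 - x) ^ 2 * x * z = (1 - x) ^ 4 := by
    have : x * q ^ 2 = x + 8 := by rw [hq2]; field_simp
    rw [hz]; linear_combination ((1 - x) ^ 4 / 8) * this
  nlinarith [mul_pos hx (sub_pos.2 hDz), mul_pos (mul_pos hx (sub_pos.2 hDz)) (add_pos hD0 hD0),
    mul_pos (mul_pos hx (sub_pos.2 hDz)) (mul_pos (sub_pos.2 hx1) (sub_pos.2 hx1)),
    mul_pos (mul_pos hx (sub_pos.2 hDz)) (sub_pos.2 hDz)]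

end LogBounds

section Quintic

lemma cubic_zero {r0 r1 r2 r3 a b e f : ℝ} (hab : a ≠ b) (hae : a ≠ e) (haf : a ≠ f)
    (hbe : b ≠ e) (hbf : b ≠ f) (hef : e ≠ f)
    (ha : r0 + r1 * a + r2 * a ^ 2 + r3 * a ^ 3 = 0) (hb : r0 + r1 * b + r2 * b ^ 2 + r3 * b ^ 3 = 0)
    (he : r0 + r1 * e + r2 * e ^ 2 + r3 * e ^ 3 = 0) (hf : r0 + r1 * f + r2 * f ^ 2 + r3 * f ^ 3 = 0) :
    r0 = 0 ∧ r1 = 0 ∧ r2 = 0 ∧ r3 = 0 := by
  have c : ∀ {u v w : ℝ}, u ≠ v → (u - v) * w = 0 → w = 0 :=
    fun h h' => (mul_eq_zero.1 h').resolve_left (sub_ne_zero.2 h)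
  have ab := c (w := r1 + r2 * (a + b) + r3 * (a ^ 2 + a * b + b ^ 2)) hab (by linear_combination ha - hb)
  have ae := c (w := r1 + r2 * (a + e) + r3 * (a ^ 2 + a * e + e ^ 2)) hae (by linear_combination ha - he)
  have af := c (w := r1 + r2 * (a + f) + r3 * (a ^ 2 + a * f + f ^ 2)) haf (by linear_combination ha - hf)
  have abe := c (w := r2 + r3 * (a + b + e)) hbe (by linear_combination ab - ae)
  have abf := c (w := r2 + r3 * (a + b + f)) hbf (by linear_combination ab - af)
  have h3 := c (w := r3) hef (by linear_combination abe - abf)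
  have h2 : r2 = 0 := by linear_combination abe - (a + b + e) * h3
  have h1 : r1 = 0 := by linear_combination ab - (a + b) * h2 - (a ^ 2 + a * b + b ^ 2) * h3
  exact ⟨by linear_combination ha - a * h1 - a ^ 2 * h2 - a ^ 3 * h3, h1, h2, h3⟩

/-- A quintic, by coefficients. -/
def quintic (q0 q1 q2 q3 q4 q5 s : ℝ) : ℝ :=
  q0 + q1 * s + q2 * s ^ 2 + q3 * s ^ 3 + q4 * s ^ 4 + q5 * s ^ 5

/-- Descartes in the case used below: no four positive roots. -/
lemma no_four_roots {q0 q1 q2 q3 q4 q5 a b e f : ℝ} (h0 : q0 < 0) (h5 : 0 ≤ q5) (h12 : q1 ≤ q2)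
    (hab : a ≠ b) (hae : a ≠ e) (haf : a ≠ f) (hbe : b ≠ e) (hbf : b ≠ f) (hef : e ≠ f)
    (pa : 0 < a) (pb : 0 < b) (pe : 0 < e) (pf : 0 < f)
    (za : quintic q0 q1 q2 q3 q4 q5 a = 0) (zb : quintic q0 q1 q2 q3 q4 q5 b = 0)
    (ze : quintic q0 q1 q2 q3 q4 q5 e = 0) (zf : quintic q0 q1 q2 q3 q4 q5 f = 0) : False := by
  unfold quintic at za zb ze zf
  set s1 := a + b + e + f with hs1
  set s2 := a * b + a * e + a * f + b * e + b * f + e * f with hs2
  set s3 := a * b * e + a * b * f + a * e * f + b * e * f with hs3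
  set s4 := a * b * e * f with hs4
  set m := q4 + q5 * s1 with hm
  obtain ⟨g0, g1, g2, -⟩ := cubic_zero (r0 := q0 - m * s4) (r1 := q1 - (q5 * s4 - m * s3))
    (r2 := q2 - (m * s2 - q5 * s3)) (r3 := q3 - (q5 * s2 - m * s1)) hab hae haf hbe hbf hef
    (by simp only [hm, hs1, hs2, hs3, hs4]; linear_combination za)
    (by simp only [hm, hs1, hs2, hs3, hs4]; linear_combination zb)
    (by simp only [hm, hs1, hs2, hs3, hs4]; linear_combination ze)
    (by simp only [hm, hs1, hs2, hs3, hs4]; linear_combination zf)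
  have p4 : 0 < s4 := by rw [hs4]; positivity
  have p3 : 0 < s3 := by rw [hs3]; positivity
  have p2 : 0 < s2 := by rw [hs2]; positivity
  have hm0 : m < 0 := by nlinarith
  nlinarith [mul_pos (neg_pos.2 hm0) p3, mul_pos (neg_pos.2 hm0) p2, mul_nonneg h5 p4.le,
    mul_nonneg h5 p3.le]

/-- Descartes in the case used below: no three positive roots. -/
lemma no_three_roots {q0 q1 q2 q3 q4 q5 a b e : ℝ} (h0 : 0 ≤ q0) (h1 : 0 < q1) (h2 : 0 ≤ q2)
    (h5 : 0 ≤ q5) (hab : a ≠ b) (hae : a ≠ e) (hbe : b ≠ e)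
    (pa : 0 < a) (pb : 0 < b) (pe : 0 < e)
    (za : quintic q0 q1 q2 q3 q4 q5 a = 0) (zb : quintic q0 q1 q2 q3 q4 q5 b = 0)
    (ze : quintic q0 q1 q2 q3 q4 q5 e = 0) : False := by
  unfold quintic at za zb ze
  set s1 := a + b + e with hs1
  set s2 := a * b + a * e + b * e with hs2
  set s3 := a * b * e with hs3
  set u := q4 + q5 * s1 with hu
  set v := q3 + u * s1 - q5 * s2 with hv
  have c : ∀ {u v w : ℝ}, u ≠ v → (u - v) * w = 0 → w = 0 :=
    fun h h' => (mul_eq_zero.1 h').resolve_left (sub_ne_zero.2 h)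
  set r0 := q0 - -(v * s3) with hr0
  set r1 := q1 - (v * s2 - u * s3) with hr1
  set r2 := q2 - (u * s2 - v * s1 - q5 * s3) with hr2
  have ea : r0 + r1 * a + r2 * a ^ 2 = 0 := by
    simp only [hr0, hr1, hr2, hu, hv, hs1, hs2, hs3]; linear_combination za
  have eb : r0 + r1 * b + r2 * b ^ 2 = 0 := by
    simp only [hr0, hr1, hr2, hu, hv, hs1, hs2, hs3]; linear_combination zb
  have ee : r0 + r1 * e + r2 * e ^ 2 = 0 := by
    simp only [hr0, hr1, hr2, hu, hv, hs1, hs2, hs3]; linear_combination ze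
  have g1 := c (w := r1 + r2 * (a + b)) hab (by linear_combination ea - eb)
  have g2 := c (w := r1 + r2 * (a + e)) hae (by linear_combination ea - ee)
  have k2 := c (w := r2) hbe (by linear_combination g1 - g2)
  have k1 : r1 = 0 := by linear_combination g1 - (a + b) * k2
  have k0 : r0 = 0 := by linear_combination ea - a * k1 - a ^ 2 * k2
  have p3 : 0 < s3 := by rw [hs3]; positivity
  have p2 : 0 < s2 := by rw [hs2]; positivity
  have hsq : s1 * s3 < s2 ^ 2 := by
    rw [hs1, hs2, hs3]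
    clear_value s1 s2 s3 u v r0 r1 r2
    nlinarith [mul_pos pa pb, mul_pos pa pe, mul_pos pb pe, mul_pos (mul_pos pa pb) (mul_pos pa pe),
      mul_pos (mul_pos pa pb) (mul_pos pb pe), mul_pos (mul_pos pa pe) (mul_pos pb pe)]
  have hv0 : v ≤ 0 := by
    by_contra h
    rw [not_le] at h
    linarith [mul_pos h p3, k0, hr0]
  have A : s2 * (-v) < s3 * (-u) := by linarith [k1, hr1]
  have C : q5 * s3 ≤ s2 * u + s1 * (-v) := by linarith [k2, hr2]
  have h53 : 0 ≤ q5 * s3 := mul_nonneg h5 p3.le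
  have C' : s2 * (-u) ≤ s1 * (-v) := by linarith
  have I1 := mul_lt_mul_of_pos_left A p2
  have I2 := mul_le_mul_of_nonneg_left C' p3.le
  have I3 := mul_le_mul_of_nonneg_right hsq.le (neg_nonneg.2 hv0)
  linarith

end Quintic

section Core

/-- `(r-x)/r` times the quantity to be shown nonnegative. -/
noncomputable def P (c x B a r : ℝ) : ℝ :=
  (r - x) * (1 - r) * (1 / (1 + c * r) - a / r)
    + 2 * x * (1 - r) * (log (1 + c * r) - log (1 + c * x)) + B * (r - x) * log r

/-- First derivative of `P`. -/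
noncomputable def P1 (c x B a r : ℝ) : ℝ :=
  (1 + x - 2 * r) * (1 / (1 + c * r) - a / r)
    + (r - x) * (1 - r) * (-c / (1 + c * r) ^ 2 + a / r ^ 2)
    - 2 * x * (log (1 + c * r) - log (1 + c * x)) + 2 * x * (1 - r) * (c / (1 + c * r))
    + B * (log r + (r - x) / r)

/-- Second derivative of `P`. -/
noncomputable def P2 (c x B a r : ℝ) : ℝ :=
  -(2 * (1 + c * x) * (1 + c)) / (1 + c * r) ^ 3 + 2 * a * x / r ^ 3
    - 2 * x * c * (2 + c + c * r) / (1 + c * r) ^ 2 + B * (r + x) / r ^ 2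

variable {c x B a r : ℝ}

lemma hasDeriv_P (hc : 0 < c) (hr : 0 < r) : HasDerivAt (P c x B a) (P1 c x B a r) r := by
  have h1 : (0:ℝ) < 1 + c * r := by positivity
  have hi := hasDerivAt_id' r
  have hlin := (hi.const_mul c).const_add 1
  have hrat := (((hi.sub_const x).mul (hi.const_sub 1)).mul
    (((hasDerivAt_const r (1:ℝ)).div hlin h1.ne').sub ((hasDerivAt_const r a).div hi hr.ne')))
  have hlg := ((hi.const_sub 1).const_mul (2 * x)).mul
    ((hlin.log h1.ne').sub_const (log (1 + c * x)))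
  have hB := ((hi.sub_const x).const_mul B).mul (hasDerivAt_log hr.ne')
  refine ((hrat.add hlg).add hB).congr_deriv ?_
  simp only [P1, Pi.div_apply, Pi.mul_apply, Pi.sub_apply]
  field_simp
  ring

lemma hasDeriv_P1 (hc : 0 < c) (hr : 0 < r) : HasDerivAt (P1 c x B a) (P2 c x B a r) r := by
  have h1 : (0:ℝ) < 1 + c * r := by positivity
  have hi := hasDerivAt_id' r
  have hlin := (hi.const_mul c).const_add 1
  have hA := ((hi.const_mul 2).const_sub (1 + x)).mul
    (((hasDerivAt_const r (1:ℝ)).div hlin h1.ne').sub ((hasDerivAt_const r a).div hi hr.ne'))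
  have hB1 := ((hi.sub_const x).mul (hi.const_sub 1)).mul
    (((hasDerivAt_const r (-c)).div (hlin.pow 2) (pow_ne_zero 2 h1.ne')).add
      ((hasDerivAt_const r a).div (hi.pow 2) (pow_ne_zero 2 hr.ne')))
  have hC := ((hlin.log h1.ne').sub_const (log (1 + c * x))).const_mul (2 * x)
  have hD := ((hi.const_sub 1).const_mul (2 * x)).mul ((hasDerivAt_const r c).div hlin h1.ne')
  have hE := ((hasDerivAt_log hr.ne').add ((hi.sub_const x).div hi hr.ne')).const_mul B
  refine ((((hA.add hB1).sub hC).add hD).add hE).congr_deriv ?_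
  simp only [P2, Pi.div_apply, Pi.mul_apply, Pi.sub_apply, Pi.add_apply, Pi.pow_apply,
    Nat.cast_ofNat]
  field_simp
  ring

lemma contOn_P (hc : 0 < c) {l u : ℝ} (hl : 0 < l) : ContinuousOn (P c x B a) (Icc l u) :=
  fun _ hy => (hasDeriv_P hc (hl.trans_le hy.1)).continuousAt.continuousWithinAt

lemma contOn_P1 (hc : 0 < c) {l u : ℝ} (hl : 0 < l) : ContinuousOn (P1 c x B a) (Icc l u) :=
  fun _ hy => (hasDeriv_P1 hc (hl.trans_le hy.1)).continuousAt.continuousWithinAt

lemma rolle_P (hc : 0 < c) {l u : ℝ} (hl : 0 < l) (hlu : l < u)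
    (h : P c x B a l = P c x B a u) : ∃ w ∈ Ioo l u, P1 c x B a w = 0 :=
  exists_hasDerivAt_eq_zero hlu (contOn_P hc hl) h
    fun _ hy => hasDeriv_P hc (hl.trans hy.1)

lemma rolle_P1 (hc : 0 < c) {l u : ℝ} (hl : 0 < l) (hlu : l < u)
    (h : P1 c x B a l = P1 c x B a u) : ∃ w ∈ Ioo l u, P2 c x B a w = 0 :=
  exists_hasDerivAt_eq_zero hlu (contOn_P1 hc hl) h
    fun _ hy => hasDeriv_P1 hc (hl.trans hy.1)

lemma quintic_of_P2 (hc : 0 < c) (hr : 0 < r) (h : P2 c x B a r = 0) :
    quintic (2 * a * x * c ^ 3) (6 * a * x * c ^ 3 + B * c ^ 2 * x)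
      (6 * a * x * c ^ 3 + 3 * B * c ^ 2 * x + B * c)
      (-2 * (1 + c * x) * (1 + c) - 2 * x * c * (2 + c) + 2 * a * x * c ^ 3 + 3 * B * c ^ 2 * x
        + 3 * B * c)
      (-2 * x * c * (3 + c) + B * c ^ 2 * x + 3 * B * c) (B * c - 2 * x * c) (c * r) = 0 := by
  have h1 : (0:ℝ) < 1 + c * r := by positivity
  have h' : c ^ 3 * r ^ 3 * (1 + c * r) ^ 3 * P2 c x B a r = 0 := by rw [h, mul_zero]
  rw [← h', quintic, P2]
  field_simp
  ring

/-- The hypotheses of the core lemma. -/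
structure Core (c x B a : ℝ) : Prop where
  hc : 0 < c
  hx : 0 < x
  hx1 : x < 1
  hB : 0 < B
  hB2 : 2 * x < B
  d1x : P1 c x B a x = 0
  d2x : P2 c x B a x = 0
  d11 : P1 c x B a 1 = 0

lemma P_at_x : P c x B a x = 0 := by simp [P]

lemma P_at_one : P c x B a 1 = 0 := by simp [P]

namespace Core

variable (K : Core c x B a)
include K

lemma basic_roots : ∃ u v w, x < u ∧ u < v ∧ v < w ∧ w < 1 ∧
    P2 c x B a u = 0 ∧ P1 c x B a v = 0 ∧ P2 c x B a w = 0 := by
  obtain ⟨v, hv, pv⟩ := rolle_P (B := B) (a := a) K.hc K.hx K.hx1 (P_at_x.trans P_at_one.symm)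
  obtain ⟨u, hu, pu⟩ := rolle_P1 K.hc K.hx hv.1 (K.d1x.trans pv.symm)
  obtain ⟨w, hw, pw⟩ := rolle_P1 K.hc (K.hx.trans hv.1) hv.2 (pv.trans K.d11.symm)
  exact ⟨u, v, w, hu.1, hu.2, hw.1, hw.2, pu, pv, pw⟩

lemma a_neg : a < 0 := by
  obtain ⟨u, v, w, h1, h2, h3, h4, pu, pv, pw⟩ := K.basic_roots
  by_contra ha
  rw [not_lt] at ha
  have := K.hc; have := K.hx; have := K.hB
  have hB2' : 0 ≤ B * c - 2 * x * c := by nlinarith [mul_pos K.hc (sub_pos.2 K.hB2)]
  have hu0 : 0 < u := by linarith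
  have hw0 : 0 < w := by linarith
  refine no_three_roots ?_ ?_ ?_ hB2' ?_ ?_ ?_ (mul_pos K.hc K.hx) (mul_pos K.hc hu0)
    (mul_pos K.hc hw0) (quintic_of_P2 K.hc K.hx K.d2x) (quintic_of_P2 K.hc hu0 pu)
    (quintic_of_P2 K.hc hw0 pw)
  · positivity
  · positivity
  · positivity
  all_goals (intro h; have := mul_left_cancel₀ K.hc.ne' h; linarith)

lemma four_roots {a1 a2 a3 a4 : ℝ} (h0 : 0 < a1) (h12 : a1 < a2) (h23 : a2 < a3) (h34 : a3 < a4)
    (z1 : P2 c x B a a1 = 0) (z2 : P2 c x B a a2 = 0) (z3 : P2 c x B a a3 = 0)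
    (z4 : P2 c x B a a4 = 0) : False := by
  have := K.hc; have := K.hx; have := K.hB
  have ha := K.a_neg
  have p2 : 0 < a2 := by linarith
  have p3 : 0 < a3 := by linarith
  have p4 : 0 < a4 := by linarith
  refine no_four_roots ?_ ?_ ?_ ?_ ?_ ?_ ?_ ?_ ?_ (mul_pos K.hc h0) (mul_pos K.hc p2)
    (mul_pos K.hc p3) (mul_pos K.hc p4) (quintic_of_P2 K.hc h0 z1) (quintic_of_P2 K.hc p2 z2)
    (quintic_of_P2 K.hc p3 z3) (quintic_of_P2 K.hc p4 z4)
  · have : 0 < (-a) * x * c ^ 3 := by have := neg_pos.2 ha; positivity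
    linarith
  · nlinarith [mul_pos K.hc (sub_pos.2 K.hB2)]
  · have : 0 < 2 * B * c ^ 2 * x + B * c := by positivity
    linarith
  all_goals (intro h; have := mul_left_cancel₀ K.hc.ne' h; linarith)

lemma P2_one : P2 c x B a 1 ≠ 0 := by
  intro h
  obtain ⟨u, v, w, h1, h2, h3, h4, pu, pv, pw⟩ := K.basic_roots
  exact K.four_roots K.hx h1 (h2.trans h3) h4 K.d2x pu pw h

lemma P_ne_zero {r : ℝ} (hr : 0 < r) (hrx : r ≠ x) (hr1 : r ≠ 1) : P c x B a r ≠ 0 := by
  intro h
  obtain ⟨u, v, w, h1, h2, h3, h4, pu, pv, pw⟩ := K.basic_roots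
  have hc := K.hc; have hx := K.hx; have hx1 := K.hx1
  rcases lt_or_gt_of_ne hrx with hlt | hgt
  · obtain ⟨s, hs, ps⟩ := rolle_P hc hr hlt (h.trans P_at_x.symm)
    obtain ⟨t, ht, pt⟩ := rolle_P1 hc (hr.trans hs.1) hs.2 (ps.trans K.d1x.symm)
    exact K.four_roots ((hr.trans hs.1).trans ht.1) ht.2 h1 (h2.trans h3) pt K.d2x pu pw
  rcases lt_or_gt_of_ne hr1 with hlt | hgt1
  · obtain ⟨s, hs, ps⟩ := rolle_P hc hx hgt (P_at_x.trans h.symm)
    obtain ⟨t, ht, pt⟩ := rolle_P hc hr hlt (h.trans P_at_one.symm)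
    have hs0 : 0 < s := hx.trans hs.1
    have ht0 : 0 < t := hr.trans ht.1
    obtain ⟨e1, he1, pe1⟩ := rolle_P1 hc hx hs.1 (K.d1x.trans ps.symm)
    obtain ⟨e2, he2, pe2⟩ := rolle_P1 hc hs0 (hs.2.trans ht.1) (ps.trans pt.symm)
    obtain ⟨e3, he3, pe3⟩ := rolle_P1 hc ht0 ht.2 (pt.trans K.d11.symm)
    exact K.four_roots hx he1.1 (he1.2.trans he2.1) (he2.2.trans he3.1) K.d2x pe1 pe2 pe3
  · obtain ⟨s, hs, ps⟩ := rolle_P hc one_pos hgt1 (P_at_one.trans h.symm)
    obtain ⟨t, ht, pt⟩ := rolle_P1 hc one_pos hs.1 (K.d11.trans ps.symm)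
    exact K.four_roots hx h1 (h2.trans h3) (h4.trans ht.1) K.d2x pu pw pt

lemma same_sign {s t : ℝ} (hs : 0 < s) (ht : 0 < t)
    (hx' : x ∉ uIcc s t) (h1' : (1:ℝ) ∉ uIcc s t) (h : 0 < P c x B a s) : 0 < P c x B a t := by
  by_contra hn
  rw [not_lt] at hn
  have hcont : ContinuousOn (P c x B a) (uIcc s t) := contOn_P K.hc (lt_min hs ht)
  obtain ⟨z, hz, pz⟩ := intermediate_value_uIcc hcont
    (mem_uIcc.2 (Or.inr ⟨hn, h.le⟩) : (0:ℝ) ∈ uIcc (P c x B a s) (P c x B a t))
  exact K.P_ne_zero ((lt_min hs ht).trans_le hz.1) (fun e => hx' (e ▸ hz))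
    (fun e => h1' (e ▸ hz)) pz

lemma exists_neg_left : ∃ r, 0 < r ∧ r < x ∧ P c x B a r < 0 := by
  have ha := neg_pos.2 K.a_neg
  have hx := K.hx; have hB := K.hB
  have he : 0 < 1 - x := sub_pos.2 K.hx1
  set s := min (x / 2) ((-a) * (1 - x) / (8 * B)) with hs
  have hs0 : 0 < s := lt_min (by positivity) (by positivity)
  have hsx : s ≤ x / 2 := min_le_left _ _
  have hsB : 8 * B * s ≤ (-a) * (1 - x) := by
    rw [mul_comm]; exact (le_div_iff₀ (by positivity)).1 (min_le_right _ _)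
  have hs1 : s < 1 := by linarith [K.hx1]
  have hss : s ^ 2 < s := by nlinarith
  refine ⟨s ^ 2, by positivity, by linarith, ?_⟩
  have hrx : s ^ 2 < x := by linarith
  have hlog : log (1 + c * s ^ 2) ≤ log (1 + c * x) := by
    have := K.hc
    exact log_le_log (by positivity) (by nlinarith)
  have hl : log (s ^ 2) = -(2 * log s⁻¹) := by rw [log_pow, log_inv]; push_cast; ring
  have hl2 : log s⁻¹ ≤ s⁻¹ := (log_le_sub_one_of_pos (inv_pos.2 hs0)).trans (by linarith)
  have h1 : (s ^ 2 - x) * (1 - s ^ 2) * (1 / (1 + c * s ^ 2) - a / s ^ 2)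
      ≤ -((x / 2) * (1 - x) * ((-a) / s ^ 2)) := by
    have hp : (x / 2) * (1 - x) ≤ (x - s ^ 2) * (1 - s ^ 2) :=
      mul_le_mul (by linarith) (by linarith) he.le (by linarith)
    have hq : (-a) / s ^ 2 ≤ 1 / (1 + c * s ^ 2) - a / s ^ 2 := by
      rw [neg_div]; have := K.hc
      have : (0:ℝ) ≤ 1 / (1 + c * s ^ 2) := by positivity
      linarith
    have := mul_le_mul hp hq (by positivity) (by nlinarith)
    nlinarith
  have h2 : 2 * x * (1 - s ^ 2) * (log (1 + c * s ^ 2) - log (1 + c * x)) ≤ 0 :=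
    mul_nonpos_of_nonneg_of_nonpos (mul_nonneg (by positivity) (by linarith)) (by linarith)
  have h3 : B * (s ^ 2 - x) * log (s ^ 2) ≤ B * x * (2 * s⁻¹) := by
    rw [hl]
    have : 0 ≤ log s⁻¹ := log_nonneg ((one_le_inv₀ hs0).2 hs1.le)
    calc B * (s ^ 2 - x) * -(2 * log s⁻¹) = B * (x - s ^ 2) * (2 * log s⁻¹) := by ring
      _ ≤ B * x * (2 * s⁻¹) := by
        apply mul_le_mul (mul_le_mul_of_nonneg_left (by linarith [sq_nonneg s]) hB.le)
          (by linarith) (by positivity) (by positivity)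
  have h4 : B * x * (2 * s⁻¹) < (x / 2) * (1 - x) * ((-a) / s ^ 2) := by
    rw [show B * x * (2 * s⁻¹) = 2 * B * x * s / s ^ 2 by field_simp,
      show (x / 2) * (1 - x) * ((-a) / s ^ 2) = (x / 2 * (1 - x) * (-a)) / s ^ 2 by ring,
      div_lt_div_iff_of_pos_right (by positivity)]
    nlinarith [mul_le_mul_of_nonneg_left hsB hx.le, mul_pos (mul_pos hx he) ha]
  rw [P]; linarith

lemma exists_pos_right : ∃ r, 1 < r ∧ 0 < P c x B a r := by
  have ha := neg_pos.2 K.a_neg
  have hx := K.hx; have hc := K.hc; have hB := K.hB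
  have hk := sub_pos.2 K.hB2
  set C := 1 / c + (-a) + 2 * x * log (1 + c) + B * x with hC
  have hlc : 0 ≤ log (1 + c) := log_nonneg (by linarith)
  have hC0 : 0 < C := by rw [hC]; positivity
  set r := exp (C / (B - 2 * x) + 1) with hr
  have hlr : log r = C / (B - 2 * x) + 1 := log_exp _
  have hr1 : 1 < r := one_lt_exp_iff.2 (by positivity)
  have hr0 : 0 < r := by linarith
  refine ⟨r, hr1, ?_⟩
  have hlog : log (1 + c * r) ≤ log r + log (1 + c) := by
    rw [← log_mul hr0.ne' (by positivity)]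
    exact log_le_log (by positivity) (by nlinarith)
  have hlogx : 0 ≤ log (1 + c * x) := log_nonneg (by nlinarith)
  have h1 : -(r * (1 / c + (-a)))
      ≤ (r - x) * (1 - r) * (1 / (1 + c * r) - a / r) := by
    have hp : (r - x) * (r - 1) ≤ r * r :=
      mul_le_mul (by linarith) (by linarith) (by linarith) hr0.le
    have hq0 : 0 ≤ 1 / (1 + c * r) - a / r := by
      rw [sub_eq_add_neg, ← neg_div]; positivity
    have hq : 1 / (1 + c * r) - a / r ≤ (1 / c + (-a)) / r := by
      rw [add_div, neg_div, div_div, ← sub_eq_add_neg]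
      exact sub_le_sub_right (one_div_le_one_div_of_le (by positivity) (by linarith)) _
    have := mul_le_mul hp hq hq0 (by positivity)
    rw [show r * r * ((1 / c + -a) / r) = r * (1 / c + -a) by field_simp] at this
    nlinarith
  have h2 : -(2 * x * r * (log r + log (1 + c)))
      ≤ 2 * x * (1 - r) * (log (1 + c * r) - log (1 + c * x)) := by
    have hd : 0 ≤ log (1 + c * r) - log (1 + c * x) := by
      rw [sub_nonneg]; exact log_le_log (by positivity) (by nlinarith [K.hx1])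
    have := mul_le_mul (show 2 * x * (r - 1) ≤ 2 * x * r by nlinarith)
      (show log (1 + c * r) - log (1 + c * x) ≤ log r + log (1 + c) by linarith) hd (by positivity)
    nlinarith
  have h3 : B * r * log r - B * x * r ≤ B * (r - x) * log r := by
    have : log r ≤ r := (log_le_sub_one_of_pos hr0).trans (by linarith)
    nlinarith [mul_le_mul_of_nonneg_left this (mul_pos hB hx).le]
  have h4 : r * C < r * ((B - 2 * x) * log r) := by
    apply mul_lt_mul_of_pos_left _ hr0
    rw [hlr, mul_add, mul_div_cancel₀ _ hk.ne']; linarith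
  rw [P]; rw [hC] at h4; nlinarith

lemma pos_right (hr1 : 1 < r) : 0 < P c x B a r := by
  obtain ⟨s, hs, ps⟩ := K.exists_pos_right
  refine K.same_sign (by linarith) (by linarith) ?_ ?_ ps <;>
    (intro h; rcases mem_uIcc.1 h with h | h <;> linarith [h.1, h.2, K.hx1])

lemma neg_left (hr : 0 < r) (hrx : r < x) : P c x B a r < 0 := by
  obtain ⟨s, hs, hsx, ps⟩ := K.exists_neg_left
  rcases lt_trichotomy (P c x B a r) 0 with h | h | h
  · exact h
  · exact absurd h (K.P_ne_zero hr hrx.ne (by linarith [K.hx1]))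
  · exfalso
    have := K.same_sign hr hs ?_ ?_ h
    · linarith
    all_goals (intro h; rcases mem_uIcc.1 h with h | h <;> linarith [h.1, h.2, K.hx1])

lemma pos_mid (hxr : x < r) (hr1 : r < 1) : 0 < P c x B a r := by
  have hc := K.hc; have hx := K.hx
  rcases lt_or_gt_of_ne K.P2_one with hneg | hpos
  · -- then `P < 0` just right of `1`
    exfalso
    have hcont : ContinuousAt (P2 c x B a) 1 := by
      unfold P2; fun_prop (disch := positivity)
    obtain ⟨δ, hδ, hδ'⟩ := Metric.eventually_nhds_iff.1 (hcont.eventually_lt_const hneg)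
    set u := 1 + δ / 2 with hu
    obtain ⟨p, hp, hp'⟩ := exists_hasDerivAt_eq_slope (P c x B a) (P1 c x B a)
      (show (1:ℝ) < u by rw [hu]; linarith) (contOn_P hc one_pos)
      (fun y hy => hasDeriv_P hc (one_pos.trans hy.1))
    obtain ⟨q, hq, hq'⟩ := exists_hasDerivAt_eq_slope (P1 c x B a) (P2 c x B a)
      hp.1 (contOn_P1 hc one_pos) (fun y hy => hasDeriv_P1 hc (one_pos.trans hy.1))
    have hqn : P2 c x B a q < 0 := hδ' (by
      rw [dist_eq, abs_lt]; constructor <;> linarith [hq.1, hq.2, hp.2, hu])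
    have h1 : P1 c x B a p < 0 := by
      rw [K.d11, sub_zero, eq_div_iff (by linarith [hp.1])] at hq'
      rw [← hq']; exact mul_neg_of_neg_of_pos hqn (by linarith [hp.1])
    have h2 : 0 < P c x B a u := K.pos_right (by rw [hu]; linarith)
    rw [P_at_one, sub_zero] at hp'
    have : 0 < P c x B a u / (u - 1) := div_pos h2 (by rw [hu]; linarith)
    linarith
  · -- then `P > 0` just left of `1`
    have hcont : ContinuousAt (P2 c x B a) 1 := by
      unfold P2; fun_prop (disch := positivity)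
    obtain ⟨δ, hδ, hδ'⟩ := Metric.eventually_nhds_iff.1 (hcont.eventually_const_lt hpos)
    set u := max (1 - δ / 2) ((r + 1) / 2) with hu
    have hu1 : u < 1 := max_lt (by linarith) (by linarith)
    have hu2 : 1 - δ / 2 ≤ u := le_max_left _ _
    have hu3 : x < u := lt_of_lt_of_le (by linarith) (le_max_right _ _)
    have hu0 : 0 < u := hx.trans hu3
    obtain ⟨p, hp, hp'⟩ := exists_hasDerivAt_eq_slope (P c x B a) (P1 c x B a)
      hu1 (contOn_P hc hu0) (fun y hy => hasDeriv_P hc (hu0.trans hy.1))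
    have hp0 : 0 < p := hu0.trans hp.1
    obtain ⟨q, hq, hq'⟩ := exists_hasDerivAt_eq_slope (P1 c x B a) (P2 c x B a)
      hp.2 (contOn_P1 hc hp0) (fun y hy => hasDeriv_P1 hc (hp0.trans hy.1))
    have hqn : 0 < P2 c x B a q := hδ' (by
      rw [dist_eq, abs_lt]; constructor <;> linarith [hq.1, hq.2, hp.1])
    rw [K.d11, zero_sub, eq_div_iff (by linarith [hp.2])] at hq'
    rw [P_at_one, zero_sub, eq_div_iff (by linarith)] at hp'
    have h1 : P1 c x B a p < 0 := by nlinarith [mul_pos hqn (sub_pos.2 hp.2)]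
    have h2 : 0 < P c x B a u := by nlinarith [mul_pos (neg_pos.2 h1) (sub_pos.2 hu1)]
    refine K.same_sign hu0 (hx.trans hxr) ?_ ?_ h2 <;>
      (intro h; rcases mem_uIcc.1 h with h | h <;> linarith [h.1, h.2])

lemma mul_nonneg_of_pos (hr : 0 < r) (hrx : r ≠ x) : 0 ≤ P c x B a r / (r - x) := by
  rcases lt_or_gt_of_ne hrx with h | h
  · exact (div_pos_of_neg_of_neg (K.neg_left hr h) (sub_neg.2 h)).le
  rcases lt_trichotomy r 1 with h1 | h1 | h1
  · exact (div_pos (K.pos_mid h h1) (sub_pos.2 h)).le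
  · subst h1; rw [P_at_one]; simp
  · exact (div_pos (K.pos_right h1) (sub_pos.2 h)).le

end Core

end Core

section Main

variable {c x r : ℝ}

lemma intT_sq (hx : 0 ≤ x) (hc : 0 ≤ c) :
    ∫ l in (0:ℝ)..c, T x l ^ 2 = x - x / (1 + c * x) := by
  have hpos : ∀ l ∈ uIcc 0 c, (0:ℝ) < 1 + l * x := by
    intro l hl; rw [uIcc_of_le hc] at hl; nlinarith [hl.1, mul_nonneg hl.1 hx]
  rw [intervalIntegral.integral_eq_sub_of_hasDerivAt (f := fun l => -(x / (1 + l * x)))]
  · simp; ring
  · intro l hl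
    have h := ((hasDerivAt_const l x).div
      (((hasDerivAt_id' l).mul_const x).const_add 1) (hpos l hl).ne').neg
    refine h.congr_deriv ?_
    have := (hpos l hl).ne'
    simp only [T]; field_simp; ring
  · apply ContinuousOn.intervalIntegrable
    intro l hl
    have := hpos l hl
    apply ContinuousAt.continuousWithinAt
    unfold T; fun_prop (disch := positivity)

lemma phi_self (hx : 0 ≤ x) (hc : 0 ≤ c) : phi c x x = 2 * x - x / (1 + c * x) := by
  rw [phi, intervalIntegral.integral_const_mul]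
  simp_rw [← pow_two]
  rw [intT_sq hx hc]; ring

lemma phi_eq (hx : 0 ≤ x) (hr : 0 ≤ r) (hc : 0 ≤ c) (hne : r ≠ x) :
    phi c x r = r / (1 + c * r)
      + 2 * x * r / (r - x) * (log (1 + c * r) - log (1 + c * x)) := by
  have hne' : r - x ≠ 0 := sub_ne_zero.2 hne
  have hpos : ∀ y, 0 ≤ y → ∀ l ∈ uIcc 0 c, (0:ℝ) < 1 + l * y := by
    intro y hy l hl; rw [uIcc_of_le hc] at hl; nlinarith [mul_nonneg hl.1 hy]
  rw [phi, intervalIntegral.integral_eq_sub_of_hasDerivAt
    (f := fun l => 2 * x * r / (r - x) * (log (1 + l * r) - log (1 + l * x)))]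
  · simp
  · intro l hl
    have h1 := (hpos r hr l hl).ne'
    have h2 := (hpos x hx l hl).ne'
    have h := (((((hasDerivAt_id' l).mul_const r).const_add 1).log h1).sub
      ((((hasDerivAt_id' l).mul_const x).const_add 1).log h2)).const_mul (2 * x * r / (r - x))
    refine h.congr_deriv ?_
    simp only [T, one_mul]
    rw [div_sub_div _ _ h1 h2]
    field_simp
    ring
  · apply ContinuousOn.intervalIntegrable
    intro l hl
    have := hpos r hr l hl
    have := hpos x hx l hl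
    apply ContinuousAt.continuousWithinAt
    unfold T; fun_prop (disch := positivity)

lemma B_pos (hx : 0 < x) (hx1 : x < 1) : 0 < B x :=
  div_pos (pow_pos (sub_pos.2 hx1) 2) (sub_pos.2 (one_sub_lt_neg_log hx hx1))

lemma two_mul_lt_B (hx : 0 < x) (hx1 : x < 1) : 2 * x < B x := by
  rw [B, lt_div_iff₀ (sub_pos.2 (one_sub_lt_neg_log hx hx1))]
  nlinarith [neg_log_lt_sinh hx hx1]

lemma d_pos (hx : 0 < x) (hx1 : x < 1) : 0 < d x :=
  div_pos (mul_pos hx (neg_pos.2 (log_neg hx hx1))) (sub_pos.2 hx1)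

lemma d_lt_one (hx : 0 < x) (hx1 : x < 1) : d x < 1 := by
  rw [d, div_lt_one (sub_pos.2 hx1)]; exact mul_neg_log_lt hx hx1

/-- The cut: the affine tangent also vanishes at `r = 1`. -/
lemma exists_cut (hx : 0 < x) (hx1 : x < 1) : ∃ c : ℝ, 0 < c ∧
    1 / (1 + c) + 2 * x / (1 - x) * (log (1 + c) - log (1 + c * x))
      - (2 * x - x / (1 + c * x)) - B x * (1 - d x) = 0 := by
  let G : ℝ → ℝ := fun c => 1 / (1 + c) + 2 * x / (1 - x) * (log (1 + c) - log (1 + c * x))
      - (2 * x - x / (1 + c * x)) - B x * (1 - d x)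
  have he : 0 < 1 - x := sub_pos.2 hx1
  have hD := sub_pos.2 (one_sub_lt_neg_log hx hx1)
  have hBd : B x * (1 - d x)
      = (1 - x) * ((1 - x) - x * (-log x)) / (-log x - (1 - x)) := by
    rw [B, d]; field_simp
  have h0 : 0 < G 0 := by
    simp only [G]; norm_num
    rw [hBd, div_lt_iff₀ hD]
    nlinarith [mul_pos he (sub_pos.2 (two_mul_lt_neg_log hx hx1))]
  set K := B x * (1 - d x) + 2 * x - 2 * x / (1 - x) * (-log x) with hK
  have hK0 : 0 < K := by
    have hs := sharp_log_bound hx hx1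
    have hK' : K = ((1 - x) ^ 3 - (1 - x) ^ 2 * (x * (-log x))
        - 2 * x * (-log x - (1 - x)) ^ 2) / ((1 - x) * (-log x - (1 - x))) := by
      rw [hK, hBd]; field_simp; ring
    rw [hK']; exact div_pos (by linarith) (mul_pos he hD)
  set c0 := 3 / K with hc0
  have hc0p : 0 < c0 := by positivity
  have hG : G c0 < 0 := by
    have hl : log (1 + c0) - log (1 + c0 * x) ≤ -log x := by
      have : log (x * (1 + c0)) ≤ log (1 + c0 * x) :=
        log_le_log (by positivity) (by nlinarith)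
      rw [log_mul hx.ne' (by positivity)] at this
      linarith
    have h1 : 1 / (1 + c0) ≤ 1 / c0 := one_div_le_one_div_of_le hc0p (by linarith)
    have h2 : x / (1 + c0 * x) ≤ 1 / c0 := by
      rw [div_le_div_iff₀ (by positivity) hc0p]; linarith [mul_comm c0 x]
    have h3 := mul_le_mul_of_nonneg_left hl (by positivity : (0:ℝ) ≤ 2 * x / (1 - x))
    have h4 : 1 / c0 = K / 3 := by rw [hc0]; field_simp
    simp only [G]
    rw [hK] at h4 hK0
    linarith
  have hcont : ContinuousOn G (Icc 0 c0) := by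
    intro y hy
    have : 0 < 1 + y := by linarith [hy.1]
    have : 0 < 1 + y * x := by nlinarith [hy.1, mul_nonneg hy.1 hx.le]
    apply ContinuousAt.continuousWithinAt
    simp only [G]; fun_prop (disch := positivity)
  obtain ⟨c, hc, hc'⟩ := intermediate_value_Ioo' hc0p.le hcont (show (0:ℝ) ∈ Ioo (G c0) (G 0) from ⟨hG, h0⟩)
  exact ⟨c, hc.1, hc'⟩

/-- **Scalar tangent lemma.** -/
theorem tangent (hx : 0 < x) (hx1 : x < 1) : ∃ c : ℝ, 0 < c ∧ ∀ r, 0 ≤ r →
    0 ≤ (1 - r) * (phi c x r - phi c x x + B x * d x) - B x * (r * -log r) := by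
  obtain ⟨c, hc, hG⟩ := exists_cut hx hx1
  refine ⟨c, hc, ?_⟩
  have he : 0 < 1 - x := sub_pos.2 hx1
  have hD := sub_pos.2 (one_sub_lt_neg_log hx hx1)
  have h1x : 0 < 1 + c * x := by positivity
  set a := 2 * x - x / (1 + c * x) - B x * d x with ha
  have K : Core c x (B x) a := by
    refine ⟨hc, hx, hx1, B_pos hx hx1, two_mul_lt_B hx hx1, ?_, ?_, ?_⟩
    · rw [P1, ha, d]; field_simp; ring
    · rw [P2, ha, d, B]; field_simp; ring
    · rw [P1, ha]
      simp only [mul_one, log_one, div_one, one_pow, sub_self, mul_zero, zero_mul]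
      have : 1 / (1 + c) + 2 * x / (1 - x) * (log (1 + c) - log (1 + c * x))
          = 2 * x - x / (1 + c * x) + B x * (1 - d x) := by linarith
      field_simp at this ⊢
      linear_combination -this
  intro r hr
  have key : phi c x x - B x * d x = a := by rw [phi_self hx.le hc.le, ha]
  rw [show phi c x r - phi c x x + B x * d x = phi c x r - a by linarith]
  rcases hr.eq_or_lt with rfl | hr0
  · have := K.a_neg
    simp [phi, T]; linarith
  by_cases hrx : r = x
  · subst hrx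
    rw [phi_self hx.le hc.le, ha, d]
    apply le_of_eq
    field_simp; ring
  have h := mul_nonneg hr0.le (K.mul_nonneg_of_pos hr0 hrx)
  refine h.trans_eq ?_
  rw [phi_eq hx.le hr hc.le hrx, P]
  have := sub_ne_zero.2 hrx
  have : 0 < 1 + c * r := by positivity
  field_simp
  ring

/-- The profile of a finite family of weights `q i` at ratios `r i`. -/
noncomputable def profile {ι : Type*} (s : Finset ι) (q r : ι → ℝ) (l : ℝ) : ℝ :=
  ∑ i ∈ s, q i * (1 - r i) * (r i / (1 + l * r i))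

/-- The tangent lemma for a finite family: square below the cut, value at the cut. -/
theorem tangent_profile {ι : Type*} (hx : 0 < x) (hx1 : x < 1) : ∃ c : ℝ, 0 < c ∧
    ∀ (s : Finset ι) (q r : ι → ℝ) (W : ℝ), (∀ i ∈ s, 0 ≤ q i) → (∀ i ∈ s, 0 ≤ r i) → 0 < W →
      ∑ i ∈ s, q i * (1 - r i) = W →
      W * x + B x * (∑ i ∈ s, q i * (r i * -log (r i)) - W * d x)
        ≤ (∫ l in (0:ℝ)..c, profile s q r l ^ 2 / W) + profile s q r c := by
  obtain ⟨c, hc, hT⟩ := tangent hx hx1
  refine ⟨c, hc, fun s q r W hq hr hW hsum => ?_⟩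
  have hpos : ∀ y, 0 ≤ y → ∀ l ∈ uIcc 0 c, (0:ℝ) < 1 + l * y := by
    intro y hy l hl; rw [uIcc_of_le hc.le] at hl; nlinarith [mul_nonneg hl.1 hy]
  have cT : ∀ y, 0 ≤ y → ContinuousOn (T y) (uIcc 0 c) := by
    intro y hy l hl
    have := hpos y hy l hl
    apply ContinuousAt.continuousWithinAt
    unfold T; fun_prop (disch := positivity)
  have cm : ContinuousOn (profile s q r) (uIcc 0 c) := by
    refine continuousOn_finsetSum _ fun i hi => ?_
    exact continuousOn_const.mul (cT (r i) (hr i hi))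
  have h1 : ∑ i ∈ s, q i * (1 - r i) * phi c x (r i)
      = profile s q r c + ∫ l in (0:ℝ)..c, 2 * (T x l * profile s q r l) := by
    simp only [phi, mul_add, Finset.sum_add_distrib]
    congr 1
    simp only [← intervalIntegral.integral_const_mul]
    rw [← intervalIntegral.integral_finsetSum]
    · refine intervalIntegral.integral_congr fun l _ => ?_
      simp only [profile, Finset.mul_sum, T]
      exact Finset.sum_congr rfl fun i _ => by ring
    · exact fun i hi => (continuousOn_const.mul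
        (continuousOn_const.mul ((cT x hx.le).mul (cT (r i) (hr i hi))))).intervalIntegrable
  have h2 : (∫ l in (0:ℝ)..c, 2 * (T x l * profile s q r l)) - W * (x - x / (1 + c * x))
      ≤ ∫ l in (0:ℝ)..c, profile s q r l ^ 2 / W := by
    have i1 : IntervalIntegrable (fun l => 2 * (T x l * profile s q r l)) MeasureTheory.volume 0 c :=
      (continuousOn_const.mul ((cT x hx.le).mul cm)).intervalIntegrable
    have i2 : IntervalIntegrable (fun l => W * T x l ^ 2) MeasureTheory.volume 0 c :=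
      (continuousOn_const.mul ((cT x hx.le).pow 2)).intervalIntegrable
    rw [← intT_sq hx.le hc.le, ← intervalIntegral.integral_const_mul,
      ← intervalIntegral.integral_sub i1 i2]
    refine intervalIntegral.integral_mono_on hc.le (i1.sub i2)
      (((cm.pow 2).div_const W).intervalIntegrable) fun l _ => ?_
    rw [le_div_iff₀ hW]
    nlinarith [sq_nonneg (profile s q r l - W * T x l)]
  have h3 : 0 ≤ ∑ i ∈ s, q i * ((1 - r i) * (phi c x (r i) - phi c x x + B x * d x)
      - B x * (r i * -log (r i))) :=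
    Finset.sum_nonneg fun i hi => mul_nonneg (hq i hi) (hT (r i) (hr i hi))
  have h4 : ∑ i ∈ s, q i * ((1 - r i) * (phi c x (r i) - phi c x x + B x * d x)
      - B x * (r i * -log (r i))) = (∑ i ∈ s, q i * (1 - r i) * phi c x (r i))
        - W * (phi c x x - B x * d x) - B x * ∑ i ∈ s, q i * (r i * -log (r i)) := by
    rw [← hsum, Finset.sum_mul, Finset.mul_sum, ← Finset.sum_sub_distrib, ← Finset.sum_sub_distrib]
    exact Finset.sum_congr rfl fun i _ => by ring
  rw [h4, phi_self hx.le hc.le, h1] at h3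
  nlinarith

/-- Every value in `(0,1)` is attained by `d`. -/
theorem exists_d_eq {y : ℝ} (hy : 0 < y) (hy1 : y < 1) : ∃ x, 0 < x ∧ x < 1 ∧ d x = y := by
  set a := min (1 / 2 : ℝ) ((y / 8) ^ 2) with ha
  set b := max (1 / 2 : ℝ) y with hb
  have ha0 : 0 < a := lt_min (by norm_num) (by positivity)
  have ha1 : a ≤ 1 / 2 := min_le_left _ _
  have hb0 : (1 / 2 : ℝ) ≤ b := le_max_left _ _
  have hb1 : b < 1 := max_lt (by norm_num) hy1
  have hlo : d a < y := by
    have hsq : 0 < √a := sqrt_pos.2 ha0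
    have hsa : √a ≤ y / 8 := by
      rw [sqrt_le_iff]; exact ⟨by positivity, min_le_right _ _⟩
    have hl : log (√a)⁻¹ < (√a)⁻¹ := (log_le_sub_one_of_pos (inv_pos.2 hsq)).trans_lt (sub_one_lt _)
    rw [log_inv, log_sqrt ha0.le] at hl
    rw [d, div_lt_iff₀ (by linarith)]
    have := mul_lt_mul_of_pos_left hl ha0
    have e : a * (√a)⁻¹ = √a := by field_simp; rw [sq_sqrt ha0.le]
    nlinarith [mul_le_mul_of_nonneg_left ha1 hy.le]
  have hhi : y < d b := by
    rw [d, lt_div_iff₀ (by linarith)]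
    have h := two_mul_lt_neg_log (show (0:ℝ) < b by linarith) hb1
    have hyb : y ≤ b := le_max_right _ _
    have := mul_le_mul_of_nonneg_right hyb (by linarith : (0:ℝ) ≤ 1 - b)
    nlinarith [mul_pos (show (0:ℝ) < b by linarith) (neg_pos.2 (log_neg (show (0:ℝ) < b by linarith) hb1))]
  have hcont : ContinuousOn d (Icc a b) := by
    intro z hz
    have : z ≠ 0 := (ha0.trans_le hz.1).ne'
    have : 1 - z ≠ 0 := by linarith [hz.2]
    apply ContinuousAt.continuousWithinAt
    unfold d; fun_prop (disch := assumption)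
  obtain ⟨x, hx, hx'⟩ := intermediate_value_Ioo (ha1.trans hb0) hcont
    (show y ∈ Ioo (d a) (d b) from ⟨hlo, hhi⟩)
  exact ⟨x, ha0.trans hx.1, hx.2.trans hb1, hx'⟩

/-- `r(-log r)` lies below `1 - r`; this gives `D < n`. -/
theorem mul_neg_log_le {r : ℝ} (hr : 0 ≤ r) : r * -log r ≤ 1 - r := by
  linarith [self_sub_one_le_mul_log hr]

end Main

end Vale.Agent.P369.Scalar
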